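import Vale.Agent.P132.Flow.Surj
import Vale.Agent.P132.Smooth

/-!
# P132: the uniform commutation property with almost invariant matrices
-/

noncomputable section

namespace P132

open Filter Topology Complex
open scoped InnerProductSpace

variable {H : Type*} [NormedAddCommGroup H] [InnerProductSpace ℂ H] [CompleteSpace H]

omit [CompleteSpace H] in
lemma MatBound.col {n : ℕ} {e : Fin n → Fin n → H →L[ℂ] H} {K : ℝ} (he : MatBound e K) (l : Fin n)
    (v : H) : ∑ k, ‖e k l v‖ ^ 2 ≤ K ^ 2 * ‖v‖ ^ 2 := by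
  have h := he (Pi.single l v)
  have hv : ∀ k, ∑ j, e k j ((Pi.single l v : Fin n → H) j) = e k l v := fun k => by
    rw [Finset.sum_eq_single l (fun j _ hj => by simp [hj]) (by simp), Pi.single_eq_same]
  simp only [hv] at h
  refine h.trans (le_of_eq ?_)
  rw [Finset.sum_eq_single l (fun j _ hj => by simp [hj]) (by simp), Pi.single_eq_same]

namespace Modular

variable {S : Std H} (D : Modular S)

lemma key_core (h : Homog S) {x : H →L[ℂ] H} (hx : x ∈ S.B) (K : ℝ) {ε : ℝ} (hε : 0 < ε) :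
    ∃ η > 0, ∀ (n : ℕ) (L : Fin n → ℝ) (e : Fin n → Fin n → H →L[ℂ] H),
      (∑ k, Real.exp (L k)) = 1 → (∀ k l, e k l ∈ S.M) → MatBound e K → MatLip D L e η →
      (∑ k, ∑ l, Real.exp (L l) *
        ‖(S.cmp (Real.exp (L k)) x * e k l - e k l * S.cmp (Real.exp (L l)) x) S.Ω‖ ^ 2) ≤ ε := by
  set C := |K| + 1
  have hC : 1 ≤ C := le_add_of_nonneg_left (abs_nonneg _)
  set X := ‖x‖ + 1
  have hX : 1 ≤ X := le_add_of_nonneg_left (norm_nonneg _)
  set τ := √ε / 3
  have hτ : 0 < τ := by positivity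
  obtain ⟨η0, hη0, hB⟩ := Modular.B_uniform hx C (show 0 < τ / 3 by positivity)
  set ε2 := min (τ / (3 * C)) (τ ^ 2 / (36 * C ^ 2 * X))
  have hε2 : 0 < ε2 := lt_min (by positivity) (by positivity)
  set η1 := min (η0 / 2) (τ ^ 2 / (144 * C * X ^ 2))
  have hη1 : 0 < η1 := lt_min (by positivity) (by positivity)
  set c := gLip 1 (-I) + gLip 1 0
  set g := gLip 1 0
  have hc0 : 0 ≤ c := add_nonneg (gLip_nonneg _ _) (gLip_nonneg _ _)
  have hg0 : 0 ≤ g := gLip_nonneg _ _
  set η := min (η1 / (C * (c + 1))) (τ / (2 * X * (g + 1)))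
  have hη : 0 < η := lt_min (by positivity) (by positivity)
  refine ⟨η, hη, fun n L e hL he heK heL => ?_⟩
  set r := fun k => Real.exp (L k)
  have hr0 : ∀ k, 0 < r k := fun k => Real.exp_pos _
  have hr1 : ∀ k, r k ≤ 1 := fun k =>
    hL ▸ Finset.single_le_sum (fun j _ => (hr0 j).le) (Finset.mem_univ k)
  set b := fun k => S.cmp (r k) x
  have hb : ∀ k, IsLim S (r k) x (b k) := fun k => D.isLim_cmp h hx (hr0 k) (hr1 k)
  have hbX : ∀ k, ‖b k‖ ≤ X := fun k => (hb k).2.1.trans (by linarith)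
  have heC : MatBound e C := fun v => (heK v).trans (mul_le_mul_of_nonneg_right
    (by rw [← sq_abs K]; exact pow_le_pow_left₀ (abs_nonneg _) (by linarith) 2) (by positivity))
  set f := D.mSmooth 1 L 0 e
  have hfM : ∀ k l, f k l ∈ S.M := D.mSmooth_mem 1 L 0 he
  have hfC : MatBound f C := by
    simpa using D.matBound_mSmooth one_pos L 0 (by positivity : 0 ≤ C) heC
  have hd : MatBound (fun k l => f k l - e k l) (g * η) :=
    D.matBound_mSmooth_sub one_pos 0 hη.le heL
  have hcen : ∀ Y : Fin n → Fin n → H →L[ℂ] H, ∀ K', 0 ≤ K' → (∀ k l, Y k l ∈ S.M) →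
      MatBound Y K' →
      ‖∑ j, (r j : ℂ) * (∑ k, S.φ (Y j k * f k j) - ∑ k, S.φ (f j k * Y k j))‖ ≤ η1 * K' := by
    intro Y K' hK' hY hYK
    have := D.mat_kms one_pos (L := L) he hY hη.le hK' heL hYK
    rw [hL, one_mul, norm_sub_rev] at this
    simp only [Std.φ_sum] at this
    simp only [mul_sub, Finset.sum_sub_distrib]
    refine this.trans ?_
    rw [mul_comm η1]
    refine mul_le_mul_of_nonneg_left ?_ hK'
    calc c * η ≤ (C * (c + 1)) * (η1 / (C * (c + 1))) :=
          mul_le_mul (by nlinarith) (min_le_left _ _) hη.le (by positivity)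
      _ = η1 := by field_simp
  -- the tuple
  choose δ hδ hδd using fun k => (hb k).2.2 (ε2 / 2) (half_pos hε2)
  obtain ⟨δ', hδ', hle⟩ := exists_pos_forall_le δ hδ
  set εt := min δ' (min (η1 / (2 * C)) (min (τ ^ 2 / (4 * X ^ 2 * C ^ 2)) (ε2 ^ 2 / (8 * X ^ 2))))
  have hεt : 0 < εt := lt_min hδ' (lt_min (by positivity) (lt_min (by positivity) (by positivity)))
  obtain ⟨s, hs⟩ := exists_tuple h (ρ := r) (fun k => (hr0 k).le) hL hεt
  set W := carry s f
  set P := carry s (diagM b)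
  have hWM : W ∈ S.M := hs.carry_mem hfM
  have hWC : ‖W‖ ≤ C := hs.norm_carry_le (by positivity) hfC
  have hPM : P ∈ S.M := hs.carry_mem (diagM_mem fun k => (hb k).1)
  have hPX : ‖P‖ ≤ X := hs.norm_carry_le (by positivity) (matBound_diagM hbX)
  have hWcen : S.NearlyCentral (2 * η1) W := by
    intro y hy
    refine (hs.nearlyCentral_carry hεt.le hfM (by positivity) hfC hcen y hy).trans
      (mul_le_mul_of_nonneg_right ?_ (norm_nonneg _))
    have h2 : εt ≤ η1 / (2 * C) := (min_le_right _ _).trans (min_le_left _ _)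
    rw [le_div_iff₀ (by positivity)] at h2
    linarith
  have han : ‖x - P‖ ≤ 2 * X := (norm_sub_le _ _).trans (by linarith)
  have haΩ : ‖(x - P) S.Ω‖ ≤ ε2 := by
    have h1 := (abs_le.1 (hs.norm_sq_approx (sub_mem hx.1 hPM))).2
    have h2 : ∑ j, r j * ‖((x - P) * s j) S.Ω‖ ^ 2 ≤ ε2 ^ 2 / 4 := by
      calc _ ≤ ∑ j, r j * (ε2 / 2) ^ 2 := by
            refine Finset.sum_le_sum fun j _ =>
              mul_le_mul_of_nonneg_left (pow_le_pow_left₀ (norm_nonneg _) ?_ 2) (hr0 j).le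
            rw [sub_mul, hs.carry_diag_mul]
            exact hδd j _ ((hs.scal hεt.le j).mono ((min_le_left _ _).trans (hle j)))
        _ = ε2 ^ 2 / 4 := by rw [← Finset.sum_mul, hL]; ring
    have h3 : εt * ‖x - P‖ ^ 2 ≤ ε2 ^ 2 / 2 :=
      calc εt * ‖x - P‖ ^ 2 ≤ ε2 ^ 2 / (8 * X ^ 2) * (2 * X) ^ 2 :=
            mul_le_mul (((min_le_right _ _).trans (min_le_right _ _)).trans (min_le_right _ _))
              (pow_le_pow_left₀ (norm_nonneg _) han 2) (sq_nonneg _) (by positivity)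
        _ = ε2 ^ 2 / 2 := by field_simp; ring
    refine (sq_le_sq₀ (norm_nonneg _) hε2.le).1 ?_
    linarith [sq_nonneg ε2]
  have q1 : ‖(x * W - W * x) S.Ω‖ ≤ τ / 3 := by
    refine hB _ hWM hWC fun y hy => (hWcen y hy).trans (mul_le_mul_of_nonneg_right ?_ (norm_nonneg _))
    linarith [min_le_left (η0 / 2) (τ ^ 2 / (144 * C * X ^ 2))]
  have q2 : ‖((x - P) * W) S.Ω‖ ≤ τ / 3 := by
    have h4 := Std.norm_mul_Ω_sq_le (sub_mem hx.1 hPM) hWM (by linarith) hWcen hWC
    have h5 : C ^ 2 * ‖x - P‖ * ‖(x - P) S.Ω‖ ≤ τ ^ 2 / 18 :=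
      calc C ^ 2 * ‖x - P‖ * ‖(x - P) S.Ω‖ ≤ C ^ 2 * (2 * X) * (τ ^ 2 / (36 * C ^ 2 * X)) :=
            mul_le_mul (mul_le_mul_of_nonneg_left han (sq_nonneg _))
              (haΩ.trans (min_le_right _ _)) (norm_nonneg _) (by positivity)
        _ = τ ^ 2 / 18 := by field_simp; ring
    have h6 : 2 * η1 * C * ‖x - P‖ ^ 2 ≤ τ ^ 2 / 18 :=
      calc _ ≤ 2 * (τ ^ 2 / (144 * C * X ^ 2)) * C * (2 * X) ^ 2 :=
            mul_le_mul (mul_le_mul_of_nonneg_right
              (mul_le_mul_of_nonneg_left (min_le_right _ _) zero_le_two) (by positivity))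
              (pow_le_pow_left₀ (norm_nonneg _) han 2) (sq_nonneg _) (by positivity)
        _ = τ ^ 2 / 18 := by field_simp; ring
    refine (sq_le_sq₀ (norm_nonneg _) (by positivity)).1 ?_
    rw [show (τ / 3) ^ 2 = τ ^ 2 / 9 by ring]
    linarith
  have q3 : ‖(W * (x - P)) S.Ω‖ ≤ τ / 3 := by
    rw [mul_apply_eq_comp]
    refine ((W.le_opNorm _).trans
      (mul_le_mul hWC (haΩ.trans (min_le_left _ _)) (norm_nonneg _) (by positivity))).trans
      (le_of_eq ?_)
    field_simp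
  have q : ‖(P * W - W * P) S.Ω‖ ≤ τ := by
    rw [show P * W - W * P = (x * W - W * x) - (x - P) * W + W * (x - P) by
      rw [sub_mul, mul_sub]; abel, add_apply, sub_apply]
    linarith [norm_add_le ((x * W - W * x) S.Ω - ((x - P) * W) S.Ω) ((W * (x - P)) S.Ω),
      norm_sub_le ((x * W - W * x) S.Ω) (((x - P) * W) S.Ω)]
  have hA : ∑ l, r l * ∑ k, ‖(b k * f k l - f k l * b l) S.Ω‖ ^ 2 ≤ 2 * τ ^ 2 := by
    have h1 := (abs_le.1 (hs.norm_sq_approx (sub_mem (mul_mem hPM hWM) (mul_mem hWM hPM)))).1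
    have e1 : ∀ l, ‖((P * W - W * P) * s l) S.Ω‖ ^ 2 =
        ∑ k, ‖(b k * f k l - f k l * b l) S.Ω‖ ^ 2 := by
      intro l
      rw [← hs.norm_sum_apply, show (P * W - W * P) * s l =
          ∑ k, s k * (b k * f k l - f k l * b l) by
        rw [sub_mul, mul_assoc, mul_assoc, hs.carry_mul, hs.carry_diag_mul, ← mul_assoc,
          hs.carry_mul, Finset.mul_sum, Finset.sum_mul, ← Finset.sum_sub_distrib]
        refine Finset.sum_congr rfl fun k _ => ?_
        rw [← mul_assoc, hs.carry_diag_mul, mul_sub]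
        simp only [mul_assoc], sum_apply]
      simp only [mul_apply_eq_comp]
    simp only [e1] at h1
    have hzn : ‖P * W - W * P‖ ≤ 2 * X * C := by
      refine (norm_sub_le _ _).trans ?_
      have r1 := (norm_mul_le P W).trans (mul_le_mul hPX hWC (norm_nonneg _) (by positivity))
      have r2 := (norm_mul_le W P).trans (mul_le_mul hWC hPX (norm_nonneg _) (by positivity))
      linarith
    have h3 : εt * ‖P * W - W * P‖ ^ 2 ≤ τ ^ 2 :=
      calc εt * ‖P * W - W * P‖ ^ 2 ≤ τ ^ 2 / (4 * X ^ 2 * C ^ 2) * (2 * X * C) ^ 2 :=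
            mul_le_mul (((min_le_right _ _).trans (min_le_right _ _)).trans (min_le_left _ _))
              (pow_le_pow_left₀ (norm_nonneg _) hzn 2) (sq_nonneg _) (by positivity)
        _ = τ ^ 2 := by field_simp; ring
    linarith [pow_le_pow_left₀ (norm_nonneg _) q 2]
  have hgη : 2 * (X * (g * η)) ≤ τ := by
    calc 2 * (X * (g * η)) = (2 * X * g) * η := by ring
      _ ≤ (2 * X * (g + 1)) * (τ / (2 * X * (g + 1))) :=
          mul_le_mul (by nlinarith) (min_le_right _ _) hη.le (by positivity)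
      _ = τ := by field_simp
  have hD1 : ∀ l, ∑ k, ‖(b k * (f k l - e k l)) S.Ω‖ ^ 2 ≤ (X * (g * η)) ^ 2 := by
    intro l
    calc _ ≤ ∑ k, X ^ 2 * ‖(f k l - e k l) S.Ω‖ ^ 2 := by
          refine Finset.sum_le_sum fun k _ => ?_
          rw [← mul_pow, mul_apply_eq_comp]
          exact pow_le_pow_left₀ (norm_nonneg _)
            (((b k).le_opNorm _).trans (mul_le_mul_of_nonneg_right (hbX k) (norm_nonneg _))) 2
      _ ≤ X ^ 2 * ((g * η) ^ 2 * ‖S.Ω‖ ^ 2) := by
          rw [← Finset.mul_sum]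
          exact mul_le_mul_of_nonneg_left (hd.col l S.Ω) (sq_nonneg _)
      _ = _ := by rw [S.norm_Ω]; ring
  have hD2 : ∀ l, ∑ k, ‖((f k l - e k l) * b l) S.Ω‖ ^ 2 ≤ (X * (g * η)) ^ 2 := by
    intro l
    simp only [mul_apply_eq_comp]
    refine (hd.col l (b l S.Ω)).trans ?_
    rw [mul_comm X, mul_pow _ X]
    exact mul_le_mul_of_nonneg_left
      (pow_le_pow_left₀ (norm_nonneg _) ((Std.norm_apply_Ω_le _).trans (hbX l)) 2) (sq_nonneg _)
  rw [Finset.sum_comm]
  calc ∑ l, ∑ k, r l * ‖(b k * e k l - e k l * b l) S.Ω‖ ^ 2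
      ≤ ∑ l, r l * (3 * ∑ k, ‖(b k * f k l - f k l * b l) S.Ω‖ ^ 2 + 6 * (X * (g * η)) ^ 2) := by
        refine Finset.sum_le_sum fun l _ => ?_
        rw [← Finset.mul_sum]
        refine mul_le_mul_of_nonneg_left ?_ (hr0 l).le
        have hk : ∀ k, ‖(b k * e k l - e k l * b l) S.Ω‖ ^ 2 ≤
            3 * ‖(b k * f k l - f k l * b l) S.Ω‖ ^ 2 + 3 * ‖(b k * (f k l - e k l)) S.Ω‖ ^ 2 +
              3 * ‖((f k l - e k l) * b l) S.Ω‖ ^ 2 := by
          intro k
          rw [show b k * e k l - e k l * b l = (b k * f k l - f k l * b l) - b k * (f k l - e k l) +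
            (f k l - e k l) * b l by rw [mul_sub, sub_mul]; abel, add_apply, sub_apply]
          set p := (b k * f k l - f k l * b l) S.Ω
          set p' := (b k * (f k l - e k l)) S.Ω
          set p'' := ((f k l - e k l) * b l) S.Ω
          have hh := (norm_add_le (p - p') p'').trans (add_le_add (norm_sub_le p p') le_rfl)
          nlinarith [pow_le_pow_left₀ (norm_nonneg _) hh 2, sq_nonneg (‖p‖ - ‖p'‖),
            sq_nonneg (‖p‖ - ‖p''‖), sq_nonneg (‖p'‖ - ‖p''‖)]
        refine (Finset.sum_le_sum fun k _ => hk k).trans ?_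
        rw [Finset.sum_add_distrib, Finset.sum_add_distrib, ← Finset.mul_sum, ← Finset.mul_sum,
          ← Finset.mul_sum]
        linarith [hD1 l, hD2 l]
    _ = 3 * (∑ l, r l * ∑ k, ‖(b k * f k l - f k l * b l) S.Ω‖ ^ 2) + 6 * (X * (g * η)) ^ 2 := by
        simp only [mul_add, Finset.sum_add_distrib]
        rw [← Finset.sum_mul, hL, one_mul, Finset.mul_sum]
        exact congrArg (· + _) (Finset.sum_congr rfl fun l _ => by ring)
    _ ≤ ε := by
        have h8 : (2 * (X * (g * η))) ^ 2 ≤ τ ^ 2 := pow_le_pow_left₀ (by positivity) hgη 2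
        have h9 : τ ^ 2 = ε / 9 := by
          rw [div_pow, Real.sq_sqrt hε.le]; norm_num
        nlinarith

end Modular

end P132
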