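import Vale.Agent.P132.Flow.Surj

/-!
# P132: the one parameter group `β` on the bicentralizer
-/

noncomputable section

namespace P132

open Filter Topology Complex
open scoped InnerProductSpace

variable {H : Type*} [NormedAddCommGroup H] [InnerProductSpace ℂ H] [CompleteSpace H]

namespace Std

/-- `lim v* x v` along `exp a`-scaling isometries. -/
def cmpExp (S : Std H) (a : ℝ) (x : H →L[ℂ] H) : H →L[ℂ] H := S.cmp (Real.exp a) x

/-- The bicentralizer flow. -/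
def bflow (S : Std H) (s : ℝ) (x : H →L[ℂ] H) : H →L[ℂ] H :=
  Classical.epsilon fun z => z ∈ S.B ∧ S.cmpExp (-max s 0) z = S.cmpExp (min s 0) x

end Std

namespace Modular

variable {S : Std H} (D : Modular S) (h : Homog S) (hb : BFacts D) {a b s t : ℝ}
  {x y z : H →L[ℂ] H}
include D h

lemma cmpExp_mem (ha : a ≤ 0) (hx : x ∈ S.B) : S.cmpExp a x ∈ S.B :=
  D.cmp_mem h hx (Real.exp_pos a) (Real.exp_le_one_iff.2 ha)

lemma cmpExp_add (ha : a ≤ 0) (hb' : b ≤ 0) (hx : x ∈ S.B) :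
    S.cmpExp (a + b) x = S.cmpExp a (S.cmpExp b x) := by
  rw [Std.cmpExp, Real.exp_add, mul_comm]
  exact D.cmp_comp h (Real.exp_pos a) (Real.exp_le_one_iff.2 ha) (Real.exp_pos b)
    (Real.exp_le_one_iff.2 hb') hx

lemma cmpExp_zero (hx : x ∈ S.B) : S.cmpExp 0 x = x := by
  rw [Std.cmpExp, Real.exp_zero, D.cmp_self h hx]

include hb

lemma cmpExp_inj (ha : a ≤ 0) (hx : x ∈ S.B) (hy : y ∈ S.B)
    (he : S.cmpExp a x = S.cmpExp a y) : x = y :=
  D.cmp_inj h hb (Real.exp_pos a) (Real.exp_le_one_iff.2 ha) hx hy he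

omit hb in
lemma bflow_spec0 (s : ℝ) (hx : x ∈ S.B) :
    S.bflow s x ∈ S.B ∧ S.cmpExp (-max s 0) (S.bflow s x) = S.cmpExp (min s 0) x :=
  Classical.epsilon_spec (p := fun z => z ∈ S.B ∧ S.cmpExp (-max s 0) z = S.cmpExp (min s 0) x) <| by
    obtain ⟨z, hz, hz'⟩ := D.exists_cmp_eq h (Real.exp_pos (-max s 0))
      (Real.exp_le_one_iff.2 (neg_nonpos.2 (le_max_right s 0)))
      (D.cmpExp_mem h (min_le_right s 0) hx)
    exact ⟨z, hz, hz'⟩

omit hb in
lemma bflow_mem (s : ℝ) (hx : x ∈ S.B) : S.bflow s x ∈ S.B := (D.bflow_spec0 h s hx).1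

/-- characterisation of the flow -/
lemma bflow_spec (ha : a ≤ 0) (hb' : b ≤ 0) (hs : a - b = s) (hx : x ∈ S.B) :
    S.cmpExp b (S.bflow s x) = S.cmpExp a x := by
  obtain ⟨hm, he⟩ := D.bflow_spec0 h s hx
  have h1 : -max s 0 ≤ 0 := neg_nonpos.2 (le_max_right s 0)
  have h2 : min s 0 ≤ 0 := min_le_right s 0
  refine D.cmpExp_inj h hb h1 (D.cmpExp_mem h hb' hm) (D.cmpExp_mem h ha hx) ?_
  rw [← D.cmpExp_add h h1 hb' hm, add_comm, D.cmpExp_add h hb' h1 hm, he,
    ← D.cmpExp_add h hb' h2 hx, ← D.cmpExp_add h h1 ha hx]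
  congr 1
  have := min_add_max s 0
  linarith

lemma bflow_eq (ha : a ≤ 0) (hb' : b ≤ 0) (hs : a - b = s) (hx : x ∈ S.B) (hz : z ∈ S.B)
    (he : S.cmpExp b z = S.cmpExp a x) : S.bflow s x = z :=
  D.cmpExp_inj h hb hb' (D.bflow_mem h s hx) hz ((D.bflow_spec h hb ha hb' hs hx).trans he.symm)

lemma bflow_of_nonpos (ha : a ≤ 0) (hx : x ∈ S.B) : S.bflow a x = S.cmpExp a x :=
  D.bflow_eq h hb ha le_rfl (sub_zero a) hx (D.cmpExp_mem h ha hx)
    (D.cmpExp_zero h (D.cmpExp_mem h ha hx))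

lemma bflow_zero (hx : x ∈ S.B) : S.bflow 0 x = x := by
  rw [D.bflow_of_nonpos h hb le_rfl hx, D.cmpExp_zero h hx]

lemma bflow_add (s t : ℝ) (hx : x ∈ S.B) : S.bflow (s + t) x = S.bflow s (S.bflow t x) := by
  have h1 := D.bflow_mem h t hx
  have h2 := D.bflow_mem h s h1
  have a1 : min t 0 ≤ 0 := min_le_right _ _
  have a2 : -max t 0 ≤ 0 := neg_nonpos.2 (le_max_right _ _)
  have a3 : min s 0 ≤ 0 := min_le_right _ _
  have a4 : -max s 0 ≤ 0 := neg_nonpos.2 (le_max_right _ _)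
  refine D.bflow_eq h hb (a := min s 0 + min t 0) (b := -max t 0 + -max s 0) (add_nonpos a3 a1)
    (add_nonpos a2 a4) ?_ hx h2 ?_
  · linarith [min_add_max s 0, min_add_max t 0]
  · rw [D.cmpExp_add h a2 a4 h2, D.bflow_spec h hb a3 a4 (by linarith [min_add_max s 0]) h1,
      ← D.cmpExp_add h a2 a3 h1, add_comm, D.cmpExp_add h a3 a2 h1,
      D.bflow_spec h hb a1 a2 (by linarith [min_add_max t 0]) hx, ← D.cmpExp_add h a3 a1 hx]

variable (s)

lemma bflow_map_add (hx : x ∈ S.B) (hy : y ∈ S.B) :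
    S.bflow s (x + y) = S.bflow s x + S.bflow s y := by
  refine D.bflow_eq h hb (min_le_right s 0) (neg_nonpos.2 (le_max_right s 0))
    (by linarith [min_add_max s 0]) (hb.add _ hx _ hy)
    (hb.add _ (D.bflow_mem h s hx) _ (D.bflow_mem h s hy)) ?_
  simp only [Std.cmpExp]
  rw [D.cmp_add h hb (Real.exp_pos _) (Real.exp_le_one_iff.2 (neg_nonpos.2 (le_max_right s 0)))
      (D.bflow_mem h s hx) (D.bflow_mem h s hy),
    D.cmp_add h hb (Real.exp_pos _) (Real.exp_le_one_iff.2 (min_le_right s 0)) hx hy]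
  exact congrArg₂ _ (D.bflow_spec0 h s hx).2 (D.bflow_spec0 h s hy).2

lemma bflow_map_smul (c : ℂ) (hx : x ∈ S.B) : S.bflow s (c • x) = c • S.bflow s x := by
  refine D.bflow_eq h hb (min_le_right s 0) (neg_nonpos.2 (le_max_right s 0))
    (by linarith [min_add_max s 0]) (hb.smul c _ hx) (hb.smul c _ (D.bflow_mem h s hx)) ?_
  simp only [Std.cmpExp]
  rw [D.cmp_smul h hb (Real.exp_pos _) (Real.exp_le_one_iff.2 (neg_nonpos.2 (le_max_right s 0))) c
      (D.bflow_mem h s hx),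
    D.cmp_smul h hb (Real.exp_pos _) (Real.exp_le_one_iff.2 (min_le_right s 0)) c hx]
  exact congrArg _ (D.bflow_spec0 h s hx).2

lemma bflow_map_mul (hx : x ∈ S.B) (hy : y ∈ S.B) :
    S.bflow s (x * y) = S.bflow s x * S.bflow s y := by
  refine D.bflow_eq h hb (min_le_right s 0) (neg_nonpos.2 (le_max_right s 0))
    (by linarith [min_add_max s 0]) (hb.mul _ hx _ hy)
    (hb.mul _ (D.bflow_mem h s hx) _ (D.bflow_mem h s hy)) ?_
  simp only [Std.cmpExp]
  rw [D.cmp_mul h hb (Real.exp_pos _) (Real.exp_le_one_iff.2 (neg_nonpos.2 (le_max_right s 0)))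
      (D.bflow_mem h s hx) (D.bflow_mem h s hy),
    D.cmp_mul h hb (Real.exp_pos _) (Real.exp_le_one_iff.2 (min_le_right s 0)) hx hy]
  exact congrArg₂ _ (D.bflow_spec0 h s hx).2 (D.bflow_spec0 h s hy).2

lemma bflow_map_star (hx : x ∈ S.B) : S.bflow s (star x) = star (S.bflow s x) := by
  refine D.bflow_eq h hb (min_le_right s 0) (neg_nonpos.2 (le_max_right s 0))
    (by linarith [min_add_max s 0]) (hb.star_mem _ hx) (hb.star_mem _ (D.bflow_mem h s hx)) ?_
  simp only [Std.cmpExp]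
  rw [D.cmp_star h hb (Real.exp_pos _) (Real.exp_le_one_iff.2 (neg_nonpos.2 (le_max_right s 0)))
      (D.bflow_mem h s hx),
    D.cmp_star h hb (Real.exp_pos _) (Real.exp_le_one_iff.2 (min_le_right s 0)) hx]
  exact congrArg _ (D.bflow_spec0 h s hx).2

lemma bflow_one : S.bflow s 1 = 1 :=
  D.bflow_eq h hb (min_le_right s 0) (neg_nonpos.2 (le_max_right s 0))
    (by linarith [min_add_max s 0]) hb.one hb.one (by
      rw [Std.cmpExp, Std.cmpExp,
        D.cmp_one h hb (Real.exp_pos _) (Real.exp_le_one_iff.2 (neg_nonpos.2 (le_max_right s 0))),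
        D.cmp_one h hb (Real.exp_pos _) (Real.exp_le_one_iff.2 (min_le_right s 0))])

lemma norm_bflow_le (hx : x ∈ S.B) : ‖S.bflow s x‖ ≤ ‖x‖ := by
  refine (D.norm_le_cmp h hb (Real.exp_pos (-max s 0))
    (Real.exp_le_one_iff.2 (neg_nonpos.2 (le_max_right s 0))) (D.bflow_mem h s hx)).trans ?_
  rw [show S.cmp (Real.exp (-max s 0)) (S.bflow s x) = S.cmpExp (min s 0) x from
    (D.bflow_spec0 h s hx).2]
  exact D.norm_cmp_le h hx (Real.exp_pos _) (Real.exp_le_one_iff.2 (min_le_right s 0))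

lemma φ_bflow (hx : x ∈ S.B) : S.φ (S.bflow s x) = S.φ x := by
  rw [← D.cmp_φ h (Real.exp_pos (-max s 0))
    (Real.exp_le_one_iff.2 (neg_nonpos.2 (le_max_right s 0))) (D.bflow_mem h s hx),
    show S.cmp (Real.exp (-max s 0)) (S.bflow s x) = S.cmpExp (min s 0) x from
      (D.bflow_spec0 h s hx).2]
  exact D.cmp_φ h (Real.exp_pos _) (Real.exp_le_one_iff.2 (min_le_right s 0)) hx

lemma bflow_σ (t : ℝ) (hx : x ∈ S.B) : S.bflow s (D.σ t x) = D.σ t (S.bflow s x) := by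
  refine D.bflow_eq h hb (min_le_right s 0) (neg_nonpos.2 (le_max_right s 0))
    (by linarith [min_add_max s 0]) (hb.σ_mem t _ hx) (hb.σ_mem t _ (D.bflow_mem h s hx)) ?_
  simp only [Std.cmpExp]
  rw [D.cmp_σ h hb (Real.exp_pos _) (Real.exp_le_one_iff.2 (neg_nonpos.2 (le_max_right s 0))) t
      (D.bflow_mem h s hx),
    D.cmp_σ h hb (Real.exp_pos _) (Real.exp_le_one_iff.2 (min_le_right s 0)) t hx]
  exact congrArg _ (D.bflow_spec0 h s hx).2

lemma bflow_map_sub (hx : x ∈ S.B) (hy : y ∈ S.B) :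
    S.bflow s (x - y) = S.bflow s x - S.bflow s y := by
  rw [sub_eq_add_neg, ← neg_one_smul ℂ y, D.bflow_map_add h hb s hx (hb.smul _ _ hy),
    D.bflow_map_smul h hb s _ hy, neg_one_smul, ← sub_eq_add_neg]

lemma norm_bflow_Ω (hx : x ∈ S.B) : ‖S.bflow s x S.Ω‖ = ‖x S.Ω‖ := by
  have e := D.φ_bflow h hb s (hb.mul _ (hb.star_mem _ hx) _ hx)
  rw [D.bflow_map_mul h hb s (hb.star_mem _ hx) hx, D.bflow_map_star h hb s hx,
    Std.φ_star_mul_self, Std.φ_star_mul_self] at e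
  norm_cast at e
  exact (sq_eq_sq₀ (norm_nonneg _) (norm_nonneg _)).1 e

variable {s}

lemma bflow_cont (hx : x ∈ S.B) : Continuous fun t => S.bflow t x S.Ω := by
  rw [Metric.continuous_iff]
  intro t ε hε
  obtain ⟨δ, hδ, hd⟩ := D.cmp_near_one h hx (half_pos hε)
  refine ⟨δ, hδ, fun t' ht' => ?_⟩
  rw [dist_eq_norm] at ht' ⊢
  obtain ⟨u, rfl⟩ : ∃ u, t' = t + u := ⟨t' - t, by ring⟩
  rw [add_sub_cancel_left, Real.norm_eq_abs] at ht'
  rw [D.bflow_add h hb t u hx, ← sub_apply, ← D.bflow_map_sub h hb t (D.bflow_mem h u hx) hx,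
    D.norm_bflow_Ω h hb t (D.sub_mem_B hb (D.bflow_mem h u hx) hx)]
  refine lt_of_le_of_lt ?_ (half_lt_self hε)
  have hn : ∀ v, v ≤ 0 → -δ < v → ‖(S.bflow v x - x) S.Ω‖ ≤ ε / 2 := fun v hv hv' => by
    rw [D.bflow_of_nonpos h hb hv hx]
    exact hd _ (Real.exp_pos v) (Real.exp_le_one_iff.2 hv) (by linarith [Real.add_one_le_exp v])
  rcases le_total u 0 with hu | hu
  · exact hn u hu (by linarith [(abs_lt.1 ht').1])
  · have h3 := hn (-u) (by linarith) (by linarith [(abs_lt.1 ht').2])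
    rw [← D.norm_bflow_Ω h hb u (D.sub_mem_B hb (D.bflow_mem h (-u) hx) hx),
      D.bflow_map_sub h hb u (D.bflow_mem h (-u) hx) hx, ← D.bflow_add h hb u (-u) hx,
      add_neg_cancel, D.bflow_zero h hb hx, ← neg_sub, neg_apply, norm_neg] at h3
    exact h3

lemma matBound_bflow (s : ℝ) {n : ℕ} {e : Fin n → Fin n → H →L[ℂ] H} (he : ∀ k l, e k l ∈ S.B)
    {K : ℝ} (heK : MatBound e K) : MatBound (fun k l => S.bflow s (e k l)) K := by
  refine D.matBound_of_cmp h hb (Real.exp_pos (-max s 0))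
    (Real.exp_le_one_iff.2 (neg_nonpos.2 (le_max_right s 0)))
    (fun k l => D.bflow_mem h s (he k l)) ?_
  rw [show (fun k l => S.cmp (Real.exp (-max s 0)) (S.bflow s (e k l))) =
      fun k l => S.cmp (Real.exp (min s 0)) (e k l) from
    funext fun k => funext fun l => (D.bflow_spec0 h s (he k l)).2]
  exact D.matBound_cmp h (Real.exp_pos _) (Real.exp_le_one_iff.2 (min_le_right s 0)) he heK

lemma matLip_bflow (s : ℝ) {n : ℕ} {L : Fin n → ℝ} {e : Fin n → Fin n → H →L[ℂ] H}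
    (he : ∀ k l, e k l ∈ S.B) {η : ℝ} (hη : MatLip D L e η) :
    MatLip D L (fun k l => S.bflow s (e k l)) η := by
  intro t
  have hA : ∀ k l, ampσ D L t e k l ∈ S.B := fun k l => hb.smul _ _ (hb.σ_mem t _ (he k l))
  rw [show (fun k l => ampσ D L t (fun k l => S.bflow s (e k l)) k l - S.bflow s (e k l)) =
      fun k l => S.bflow s (ampσ D L t e k l - e k l) from funext fun k => funext fun l => by
    rw [D.bflow_map_sub h hb s (hA k l) (he k l), ampσ, ampσ,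
      D.bflow_map_smul h hb s _ (hb.σ_mem t _ (he k l)), D.bflow_σ h hb s t (he k l)]]
  exact D.matBound_bflow h hb s (fun k l => D.sub_mem_B hb (hA k l) (he k l)) (hη t)

end Modular

end P132
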