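import Vale.Agent.P132.Flow.Lim

/-!
# P132: the compression map `x ↦ lim v* x v` on the bicentralizer is a state preserving `*`-morphism
-/

noncomputable section

namespace P132

open Filter Topology Complex
open scoped InnerProductSpace ComplexConjugate

variable {H : Type*} [NormedAddCommGroup H] [InnerProductSpace ℂ H] [CompleteSpace H]

lemma exists_pos_forall_le {n : ℕ} (f : Fin n → ℝ) (hf : ∀ k, 0 < f k) :
    ∃ δ > 0, ∀ k, δ ≤ f k := by
  refine ⟨(insert 1 (Finset.univ.image f)).min' (by simp), ?_, fun k => Finset.min'_le _ _ (by simp)⟩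
  simp [Finset.lt_min'_iff, hf]

namespace Std

variable {S : Std H}

lemma NearlyCentral.star {η : ℝ} {w : H →L[ℂ] H} (hw : S.NearlyCentral η w) :
    S.NearlyCentral η (Star.star w) := by
  intro y hy
  have h := hw (Star.star y) (StarMemClass.star_mem hy)
  rw [norm_star] at h
  refine le_of_eq_of_le ?_ h
  have e1 : y * Star.star w = Star.star (w * Star.star y) := by rw [star_mul, star_star]
  have e2 : Star.star w * y = Star.star (Star.star y * w) := by rw [star_mul, star_star]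
  rw [e1, e2, φ_star, φ_star, ← map_sub, RCLike.norm_conj, norm_sub_rev]

lemma norm_φ_le_apply (a : H →L[ℂ] H) : ‖S.φ a‖ ≤ ‖a S.Ω‖ :=
  (norm_inner_le_norm _ _).trans (by rw [S.norm_Ω, one_mul])

/-- The limit of `v* x v` along `ρ`-scaling isometries. -/
def cmp (S : Std H) (ρ : ℝ) (x : H →L[ℂ] H) : H →L[ℂ] H := Classical.epsilon (IsLim S ρ x)

end Std

/-- an isometry scaling by nearly `1` nearly centralizes -/
lemma Scal.nearlyCentral {S : Std H} {ρ ε : ℝ} {v : H →L[ℂ] H} (hv : Scal S ρ ε v) (h1 : ρ ≤ 1) :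
    S.NearlyCentral (ε + (1 - ρ)) v := by
  have h : S.NearlyCentral (ε + (1 - ρ)) (star v) := by
    intro y hy
    have a1 := hv.approx y hy
    have a2 : ‖((1 - ρ : ℝ) : ℂ) * S.φ (star v * y)‖ ≤ (1 - ρ) * ‖y‖ := by
      rw [norm_mul, Complex.norm_real, Real.norm_of_nonneg (by linarith)]
      exact mul_le_mul_of_nonneg_left ((Std.norm_φ_le _).trans ((_root_.norm_mul_le _ _).trans
        (mul_le_of_le_one_left (norm_nonneg _) hv.norm_star_le))) (by linarith)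
    have e : S.φ (y * star v) - S.φ (star v * y) =
        (S.φ (y * star v) - ρ * S.φ (star v * y)) - ((1 - ρ : ℝ) : ℂ) * S.φ (star v * y) := by
      push_cast; ring
    rw [e, add_mul]
    exact (norm_sub_le _ _).trans (add_le_add a1 a2)
  simpa using h.star

namespace Modular

variable {S : Std H} (D : Modular S) {ρ ρ' : ℝ} {x y : H →L[ℂ] H}
include D

lemma isLim_cmp (h : Homog S) (hx : x ∈ S.B) (h0 : 0 < ρ) (h1 : ρ ≤ 1) :
    IsLim S ρ x (S.cmp ρ x) :=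
  Classical.epsilon_spec (D.exists_isLim h hx h0 h1)

lemma cmp_eq (h : Homog S) (hx : x ∈ S.B) (h0 : 0 < ρ) (h1 : ρ ≤ 1) {b : H →L[ℂ] H}
    (hl : IsLim S ρ x b) : S.cmp ρ x = b :=
  (D.isLim_cmp h hx h0 h1).unique h h0.le h1 hl

lemma cmp_mem (h : Homog S) (hx : x ∈ S.B) (h0 : 0 < ρ) (h1 : ρ ≤ 1) : S.cmp ρ x ∈ S.B :=
  (D.isLim_cmp h hx h0 h1).mem_B D h h0 h1 hx

lemma norm_cmp_le (h : Homog S) (hx : x ∈ S.B) (h0 : 0 < ρ) (h1 : ρ ≤ 1) : ‖S.cmp ρ x‖ ≤ ‖x‖ :=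
  (D.isLim_cmp h hx h0 h1).2.1

lemma sub_mem_B (hb : BFacts D) (hx : x ∈ S.B) (hy : y ∈ S.B) : x - y ∈ S.B := by
  rw [sub_eq_add_neg, ← neg_one_smul ℂ y]
  exact hb.add _ hx _ (hb.smul _ _ hy)

variable (h : Homog S) (hb : BFacts D) (h0 : 0 < ρ) (h1 : ρ ≤ 1)
include h hb h0 h1

lemma cmp_add (hx : x ∈ S.B) (hy : y ∈ S.B) : S.cmp ρ (x + y) = S.cmp ρ x + S.cmp ρ y :=
  D.cmp_eq h (hb.add _ hx _ hy) h0 h1
    ((D.isLim_cmp h hx h0 h1).add D h h0 h1 (hb.add _ hx _ hy) (D.isLim_cmp h hy h0 h1))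

lemma cmp_smul (c : ℂ) (hx : x ∈ S.B) : S.cmp ρ (c • x) = c • S.cmp ρ x :=
  D.cmp_eq h (hb.smul c _ hx) h0 h1 ((D.isLim_cmp h hx h0 h1).smul c)

lemma cmp_sub (hx : x ∈ S.B) (hy : y ∈ S.B) : S.cmp ρ (x - y) = S.cmp ρ x - S.cmp ρ y := by
  rw [sub_eq_add_neg, ← neg_one_smul ℂ y, D.cmp_add h hb h0 h1 hx (hb.smul _ _ hy),
    D.cmp_smul h hb h0 h1 _ hy, neg_one_smul, ← sub_eq_add_neg]

lemma cmp_mul (hx : x ∈ S.B) (hy : y ∈ S.B) : S.cmp ρ (x * y) = S.cmp ρ x * S.cmp ρ y :=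
  D.cmp_eq h (hb.mul _ hx _ hy) h0 h1
    ((D.isLim_cmp h hx h0 h1).mul D h h0 h1 hx.1 (hb.mul _ hx _ hy) (D.isLim_cmp h hy h0 h1))

lemma cmp_star (hx : x ∈ S.B) : S.cmp ρ (star x) = star (S.cmp ρ x) :=
  D.cmp_eq h (hb.star_mem _ hx) h0 h1
    ((D.isLim_cmp h hx h0 h1).star D h h0 h1 hx.1 (hb.star_mem _ hx))

lemma cmp_one : S.cmp ρ 1 = 1 :=
  D.cmp_eq h hb.one h0 h1 (IsLim.one S ρ)

lemma cmp_σ (t : ℝ) (hx : x ∈ S.B) : S.cmp ρ (D.σ t x) = D.σ t (S.cmp ρ x) :=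
  D.cmp_eq h (hb.σ_mem t _ hx) h0 h1 ((D.isLim_cmp h hx h0 h1).σ D t)

omit hb in
lemma cmp_comp (h0' : 0 < ρ') (h1' : ρ' ≤ 1) (hx : x ∈ S.B) :
    S.cmp (ρ' * ρ) x = S.cmp ρ (S.cmp ρ' x) :=
  D.cmp_eq h hx (mul_pos h0' h0) (mul_le_one₀ h1' h0.le h1)
    ((D.isLim_cmp h hx h0' h1').comp D h h0 h1 h0' h1' hx
      (D.isLim_cmp h (D.cmp_mem h hx h0' h1') h0 h1))

omit h0 h1 hb in
lemma cmp_near_one (hx : x ∈ S.B) {ε : ℝ} (hε : 0 < ε) :
    ∃ δ > 0, ∀ r, 0 < r → r ≤ 1 → 1 - δ ≤ r → ‖(S.cmp r x - x) S.Ω‖ ≤ ε := by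
  obtain ⟨η, hη, hB⟩ := Modular.B_uniform hx 1 (half_pos hε)
  refine ⟨η / 2, half_pos hη, fun r r0 r1 hr => ?_⟩
  obtain ⟨δ, hδ, hd⟩ := (D.isLim_cmp h hx r0 r1).2.2 (ε / 2) (half_pos hε)
  obtain ⟨v, hv⟩ := exists_scal h r0.le r1 (lt_min hδ (half_pos hη))
  have a1 := hd v (hv.mono (min_le_left _ _))
  have a2 := hB v hv.mem hv.norm_le fun y hy => ((hv.nearlyCentral r1) y hy).trans
    (mul_le_mul_of_nonneg_right (by linarith [min_le_right δ (η / 2)]) (norm_nonneg _))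
  have e : v * (S.cmp r x - x) = (x * v - v * x) - (x * v - v * S.cmp r x) := by
    rw [mul_sub]; abel
  rw [← hv.norm_apply ((S.cmp r x - x) S.Ω), ← mul_apply_eq_comp, e, sub_apply]
  exact (norm_sub_le _ _).trans (by linarith)

omit h0 h1 hb in
lemma cmp_self (hx : x ∈ S.B) : S.cmp 1 x = x := by
  refine Std.eq_of_Ω (D.isLim_cmp h hx one_pos le_rfl).1 hx.1 (sub_eq_zero.1 (norm_le_zero_iff.1 ?_))
  refine le_of_forall_gt_imp_ge_of_dense fun ε hε => ?_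
  obtain ⟨δ, hδ, hd⟩ := D.cmp_near_one h hx hε
  rw [← sub_apply]
  exact hd 1 one_pos le_rfl (by linarith)

omit h0 h1 hb in
lemma φ_sum_cmp (hx : x ∈ S.B) {n : ℕ} {r : Fin n → ℝ} (hr : ∀ k, 0 ≤ r k) (hr1 : ∑ k, r k = 1) :
    S.φ x = ∑ k, (r k : ℂ) * S.φ (S.cmp (r k) x) := by
  refine eq_of_forall_dist_le fun ε hε => ?_
  rw [dist_eq_norm]
  have hk : ∀ k, ∃ δ > 0, ∀ v, Scal S (r k) δ v →
      r k * ‖(star v * x * v - S.cmp (r k) x) S.Ω‖ ≤ r k * (ε / 2) := by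
    intro k
    rcases (hr k).eq_or_lt with hk | hk
    · exact ⟨1, one_pos, fun v _ => by rw [← hk, zero_mul, zero_mul]⟩
    · have hk1 : r k ≤ 1 :=
        hr1 ▸ Finset.single_le_sum (fun j _ => hr j) (Finset.mem_univ k)
      obtain ⟨δ, hδ, hd⟩ := (D.isLim_cmp h hx hk hk1).compress (half_pos hε)
      exact ⟨δ, hδ, fun v hv => mul_le_mul_of_nonneg_left (hd v hv) hk.le⟩
  choose δ hδ hd using hk
  obtain ⟨δ', hδ', hle⟩ := exists_pos_forall_le δ hδ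
  obtain ⟨s, hs⟩ := exists_tuple h hr hr1
    (lt_min hδ' (show (0:ℝ) < ε / (2 * (‖x‖ + 1)) by positivity))
  set ε' := min δ' (ε / (2 * (‖x‖ + 1))) with hε'
  have a1 : ‖S.φ x - ∑ j, (r j : ℂ) * S.φ (star (s j) * x * s j)‖ ≤ ε / 2 := by
    refine (hs.approx x hx.1).trans ?_
    calc ε' * ‖x‖ ≤ ε / (2 * (‖x‖ + 1)) * (‖x‖ + 1) :=
          mul_le_mul (min_le_right _ _) (by linarith) (norm_nonneg _) (by positivity)
      _ = ε / 2 := by field_simp
  have a2 : ‖∑ j, ((r j : ℂ) * S.φ (star (s j) * x * s j) -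
      (r j : ℂ) * S.φ (S.cmp (r j) x))‖ ≤ ε / 2 := by
    refine (norm_sum_le _ _).trans ?_
    calc _ ≤ ∑ j, r j * (ε / 2) := by
          refine Finset.sum_le_sum fun j _ => ?_
          rw [← mul_sub, ← Std.φ_sub, norm_mul, Complex.norm_real, Real.norm_of_nonneg (hr j)]
          refine (mul_le_mul_of_nonneg_left (Std.norm_φ_le_apply _) (hr j)).trans (hd j _ ?_)
          exact (hs.scal (lt_min hδ' (by positivity)).le j).mono ((min_le_left _ _).trans (hle j))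
      _ = ε / 2 := by rw [← Finset.sum_mul, hr1, one_mul]
  rw [Finset.sum_sub_distrib] at a2
  have := norm_sub_le_norm_sub_add_norm_sub (S.φ x)
    (∑ j, (r j : ℂ) * S.φ (star (s j) * x * s j)) (∑ j, (r j : ℂ) * S.φ (S.cmp (r j) x))
  linarith

omit hb in
lemma cmp_φ (hx : x ∈ S.B) : S.φ (S.cmp ρ x) = S.φ x := by
  have hn : ∀ n : ℕ, 0 < n → S.φ (S.cmp (1 / n) x) = S.φ x := fun n hn => by
    have hn' : (n : ℝ) ≠ 0 := by positivity
    have := D.φ_sum_cmp h hx (r := fun _ : Fin n => (1 / n : ℝ)) (fun _ => by positivity)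
      (by simp [hn'])
    rw [Finset.sum_const, Finset.card_univ, Fintype.card_fin, nsmul_eq_mul, ← mul_assoc] at this
    rw [this]
    push_cast
    rw [mul_one_div_cancel (Nat.cast_ne_zero.2 hn.ne'), one_mul]
  refine mul_left_cancel₀ (Complex.ofReal_ne_zero.2 h0.ne') (eq_of_forall_dist_le fun ε hε => ?_)
  obtain ⟨n, hnε⟩ := exists_nat_gt (2 * ‖x‖ / ε)
  have hn0 : (0 : ℝ) < n := lt_of_le_of_lt (by positivity) hnε
  set m := ⌊(1 - ρ) * n⌋₊ with hm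
  have hm1 : (m : ℝ) ≤ (1 - ρ) * n := Nat.floor_le (mul_nonneg (by linarith) hn0.le)
  have hm2 : (1 - ρ) * n < m + 1 := Nat.lt_floor_add_one _
  set q := 1 - ρ - m / n with hq
  have hq0 : 0 ≤ q := by rw [hq, sub_nonneg, div_le_iff₀ hn0]; exact hm1
  have hq1 : q * n ≤ 1 := by
    have : q * n = (1 - ρ) * n - m := by rw [hq]; field_simp
    linarith
  have hqn : q ≤ 1 := by
    have : (0:ℝ) ≤ m / n := by positivity
    linarith
  have hs := D.φ_sum_cmp h hx (r := Fin.cons ρ (Fin.cons q fun _ : Fin m => (1 / n : ℝ)))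
    (Fin.cases h0.le (Fin.cases hq0 fun _ => by simp))
    (by simp [Fin.sum_univ_succ, hq]; field_simp; ring)
  simp only [Fin.sum_univ_succ, Fin.cons_zero, Fin.cons_succ,
    hn n (by exact_mod_cast hn0), Finset.sum_const, Finset.card_univ, Fintype.card_fin,
    nsmul_eq_mul] at hs
  have hb1 : ‖(q : ℂ) * S.φ (S.cmp q x)‖ ≤ q * ‖x‖ := by
    rw [norm_mul, Complex.norm_real, Real.norm_of_nonneg hq0]
    rcases hq0.eq_or_lt with h' | h'
    · rw [← h', zero_mul, zero_mul]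
    · exact mul_le_mul_of_nonneg_left
        ((Std.norm_φ_le _).trans (D.norm_cmp_le h hx h' hqn)) hq0
  have hb2 : ‖(q : ℂ) * S.φ x‖ ≤ q * ‖x‖ := by
    rw [norm_mul, Complex.norm_real, Real.norm_of_nonneg hq0]
    exact mul_le_mul_of_nonneg_left (Std.norm_φ_le _) hq0
  have e : (ρ : ℂ) * S.φ (S.cmp ρ x) - (ρ : ℂ) * S.φ x =
      (q : ℂ) * S.φ x - (q : ℂ) * S.φ (S.cmp q x) := by
    have hnC : (n : ℂ) ≠ 0 := by exact_mod_cast hn0.ne'
    have hqC : (q : ℂ) = 1 - ρ - (m : ℂ) / n := by rw [hq]; push_cast; ring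
    rw [hqC] at hs ⊢
    push_cast at hs
    linear_combination (norm := (field_simp; ring)) -hs
  rw [dist_eq_norm, e]
  refine (norm_sub_le _ _).trans ?_
  rw [div_lt_iff₀ hε] at hnε
  nlinarith [norm_nonneg x, mul_le_mul_of_nonneg_right hq1 (norm_nonneg x)]

lemma norm_cmp_Ω (hx : x ∈ S.B) : ‖S.cmp ρ x S.Ω‖ = ‖x S.Ω‖ := by
  have e := D.cmp_φ h h0 h1 (hb.mul _ (hb.star_mem _ hx) _ hx)
  rw [D.cmp_mul h hb h0 h1 (hb.star_mem _ hx) hx, D.cmp_star h hb h0 h1 hx,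
    Std.φ_star_mul_self, Std.φ_star_mul_self] at e
  norm_cast at e
  exact (sq_eq_sq₀ (norm_nonneg _) (norm_nonneg _)).1 e

lemma cmp_inj (hx : x ∈ S.B) (hy : y ∈ S.B) (he : S.cmp ρ x = S.cmp ρ y) : x = y := by
  refine sub_eq_zero.1 (S.separating _ (sub_mem hx.1 hy.1) (norm_eq_zero.1 ?_))
  rw [← D.norm_cmp_Ω h hb h0 h1 (D.sub_mem_B hb hx hy), D.cmp_sub h hb h0 h1 hx hy, he, sub_self,
    zero_apply, norm_zero]

omit hb in
lemma matBound_cmp {n : ℕ} {e : Fin n → Fin n → H →L[ℂ] H} (he : ∀ k l, e k l ∈ S.B) {K : ℝ}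
    (heK : MatBound e K) : MatBound (fun k l => S.cmp ρ (e k l)) K := by
  intro ξ
  choose v hv using fun m : ℕ => exists_scal h h0.le h1 (show (0:ℝ) < 1 / (m + 1) by positivity)
  have hkl : ∀ k l, Tendsto (fun m => e k l (v m (ξ l)) - v m (S.cmp ρ (e k l) (ξ l))) atTop
      (𝓝 0) := by
    intro k l
    rw [NormedAddGroup.tendsto_nhds_zero]
    intro ε hε
    obtain ⟨δ, hδ, hd⟩ := (D.isLim_cmp h (he k l) h0 h1).strong D (he k l).1 (ξ l) (half_pos hε)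
    obtain ⟨N, hN⟩ := exists_nat_one_div_lt hδ
    filter_upwards [eventually_ge_atTop N] with m hm
    refine lt_of_le_of_lt ?_ (half_lt_self hε)
    exact hd _ ((hv m).mono (le_trans (one_div_le_one_div_of_le (by positivity)
      (by exact_mod_cast Nat.succ_le_succ hm)) hN.le))
  have hk : ∀ k, Tendsto (fun m => ‖∑ l, e k l (v m (ξ l))‖ ^ 2) atTop
      (𝓝 (‖∑ l, S.cmp ρ (e k l) (ξ l)‖ ^ 2)) := by
    intro k
    refine Tendsto.pow ?_ 2
    have := tendsto_finsetSum Finset.univ fun l _ => hkl k l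
    simp only [Finset.sum_sub_distrib, ← _root_.map_sum, Finset.sum_const_zero] at this
    have h2 := this.norm
    rw [norm_zero] at h2
    refine tendsto_iff_norm_sub_tendsto_zero.2 (squeeze_zero (fun m => norm_nonneg _) (fun m => ?_) h2)
    rw [Real.norm_eq_abs, ← (hv m).norm_apply (∑ l, S.cmp ρ (e k l) (ξ l))]
    exact abs_norm_sub_norm_le _ _
  refine le_of_tendsto (tendsto_finsetSum Finset.univ fun k _ => hk k)
    (Eventually.of_forall fun m => ?_)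
  refine (heK fun l => v m (ξ l)).trans_eq ?_
  simp only [(hv m).norm_apply]

end Modular

end P132
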