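import Vale.Agent.P132.Tuples

/-!
# P132: the limit `lim v* x v` along `ρ`-scaling isometries, for `x` in the bicentralizer
-/

noncomputable section

namespace P132

open Filter Topology Complex
open scoped InnerProductSpace ComplexConjugate

variable {H : Type*} [NormedAddCommGroup H] [InnerProductSpace ℂ H] [CompleteSpace H]

/-- `b` is the limit of `v* x v` along isometries `v` with `v φ ≈ ρ φ v`. -/
def IsLim (S : Std H) (ρ : ℝ) (x b : H →L[ℂ] H) : Prop :=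
  b ∈ S.M ∧ ‖b‖ ≤ ‖x‖ ∧
    ∀ ε > 0, ∃ δ > 0, ∀ v, Scal S ρ δ v → ‖(x * v - v * b) S.Ω‖ ≤ ε

lemma exists_scal {S : Std H} (h : Homog S) {ρ : ℝ} (h0 : 0 ≤ ρ) (h1 : ρ ≤ 1) {ε : ℝ}
    (hε : 0 < ε) : ∃ v, Scal S ρ ε v := by
  obtain ⟨s, hs⟩ := exists_tuple h (ρ := ![ρ, 1 - ρ]) (fun k => by fin_cases k <;> simp [h0, h1])
    (by simp) hε
  exact ⟨s 0, hs.scal hε.le 0⟩

namespace Modular

variable {S : Std H} (D : Modular S) {ρ : ℝ}

/-- all `ρ`-scaling isometries give nearly the same compression of `x` -/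
lemma lim_uniform {x : H →L[ℂ] H} (hx : x ∈ S.B) (h0 : 0 < ρ) (h1 : ρ ≤ 1) {ε : ℝ} (hε : 0 < ε) :
    ∃ δ > 0, ∀ v v', Scal S ρ δ v → Scal S ρ δ v' →
      ‖(star v' * x * v' - star v * x * v) S.Ω‖ ≤ ε ∧
      ‖(x * v - v * (star v * x * v)) S.Ω‖ ≤ ε ∧
      ‖(star v * x * v * star v - star v * x) S.Ω‖ ≤ ε := by
  set e := min ε (√ρ * ε / 4) with he
  have he0 : 0 < e := lt_min hε (by positivity)
  obtain ⟨η, hη, hB⟩ := B_uniform hx 1 he0
  set δ := min (η / 2) (ρ * ε ^ 2 / (2 * (4 * ‖x‖ ^ 2 + 1))) with hδ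
  have hδ0 : 0 < δ := lt_min (half_pos hη) (by positivity)
  refine ⟨δ, hδ0, fun v v' hv hv' => ?_⟩
  have hρa : |ρ| ≤ 1 := by rwa [abs_of_pos h0]
  have hA : ∀ a b, Scal S ρ δ a → Scal S ρ δ b →
      ‖(x * (b * star a) - b * star a * x) S.Ω‖ ≤ e ∧
      ‖(star b * x * b * star a - star a * x) S.Ω‖ ≤ e := by
    intro a b ha hb
    have hc : S.NearlyCentral η (b * star a) := by
      have h := ha.nearlyCentral_conj hb hρa le_rfl hδ0.le (one_mem S.M)
        (ContinuousLinearMap.norm_id_le) (fun y _ => by simp)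
      rw [mul_one] at h
      exact fun y hy => (h y hy).trans (mul_le_mul_of_nonneg_right
        (by linarith [min_le_left (η / 2) (ρ * ε ^ 2 / (2 * (4 * ‖x‖ ^ 2 + 1)))]) (norm_nonneg _))
    have hn : ‖b * star a‖ ≤ 1 :=
      (norm_mul_le _ _).trans (mul_le_one₀ hb.norm_le (norm_nonneg _) ha.norm_star_le)
    have h := hB _ (mul_mem hb.mem (star_mem ha.mem)) hn hc
    refine ⟨h, ?_⟩
    have e2 : star b * x * b * star a - star a * x =
        star b * (x * (b * star a) - b * star a * x) := by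
      rw [mul_sub, ← mul_assoc (star b) (b * star a), ← mul_assoc (star b) b, hb.iso, one_mul]
      simp only [mul_assoc]
    rw [e2, mul_apply_eq_comp]
    exact (hb.norm_star_apply_le _).trans h
  have hxn : ∀ a, Scal S ρ δ a → ‖star a * x * a‖ ≤ ‖x‖ := fun a ha =>
    ((norm_mul_le _ _).trans (mul_le_mul_of_nonneg_right (norm_mul_le _ _) (norm_nonneg _))).trans
      ((mul_le_of_le_one_right (by positivity) ha.norm_le).trans
        (mul_le_of_le_one_left (norm_nonneg _) ha.norm_star_le))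
  have hkey : ∀ z ∈ S.M, ‖z‖ ≤ 2 * ‖x‖ → ‖(z * star v) S.Ω‖ ≤ 2 * e → ‖z S.Ω‖ ≤ ε := by
    intro z hz hzn hzv
    have h2 := hv.le_norm_mul_star hδ0.le hz
    have h3 : δ * ‖z‖ ^ 2 ≤ ρ * ε ^ 2 / 2 := by
      have h4 : ‖z‖ ^ 2 ≤ 4 * ‖x‖ ^ 2 + 1 := by
        nlinarith [pow_le_pow_left₀ (norm_nonneg z) hzn 2]
      calc δ * ‖z‖ ^ 2 ≤ ρ * ε ^ 2 / (2 * (4 * ‖x‖ ^ 2 + 1)) * (4 * ‖x‖ ^ 2 + 1) :=
            mul_le_mul (min_le_right _ _) h4 (sq_nonneg _) (by positivity)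
        _ = ρ * ε ^ 2 / 2 := by field_simp
    have h5 : ‖(z * star v) S.Ω‖ ^ 2 ≤ ρ * ε ^ 2 / 4 := by
      refine (pow_le_pow_left₀ (norm_nonneg _) (hzv.trans
        (mul_le_mul_of_nonneg_left (min_le_right _ _) zero_le_two)) 2).trans (le_of_eq ?_)
      rw [show (2 * (√ρ * ε / 4)) ^ 2 = √ρ ^ 2 * ε ^ 2 / 4 by ring, Real.sq_sqrt h0.le]
    have h6 : ρ * ‖z S.Ω‖ ^ 2 ≤ ρ * ε ^ 2 := by linarith [mul_nonneg h0.le (sq_nonneg ε)]
    exact (sq_le_sq₀ (norm_nonneg _) hε.le).1 (le_of_mul_le_mul_left h6 h0)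
  have hbM : ∀ a, Scal S ρ δ a → star a * x * a ∈ S.M := fun a ha =>
    mul_mem (mul_mem (star_mem ha.mem) hx.1) ha.mem
  refine ⟨hkey _ (sub_mem (hbM v' hv') (hbM v hv)) ?_ ?_, hkey _ ?_ ?_ ?_,
    (hA v v hv hv).2.trans (min_le_left _ _)⟩
  · exact (norm_sub_le _ _).trans (by linarith [hxn v hv, hxn v' hv'])
  · have e3 : (star v' * x * v' - star v * x * v) * star v =
        (star v' * x * v' * star v - star v * x) - (star v * x * v * star v - star v * x) := by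
      rw [sub_mul]; abel
    rw [e3, sub_apply]
    exact (norm_sub_le _ _).trans (by linarith [(hA v v' hv hv').2, (hA v v hv hv).2])
  · exact sub_mem (mul_mem hx.1 hv.mem) (mul_mem hv.mem (hbM v hv))
  · refine (norm_sub_le _ _).trans ?_
    have a1 := (norm_mul_le x v).trans (mul_le_of_le_one_right (norm_nonneg _) hv.norm_le)
    have a2 := (norm_mul_le v (star v * x * v)).trans
      ((mul_le_of_le_one_left (norm_nonneg _) hv.norm_le).trans (hxn v hv))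
    linarith
  · have e4 : (x * v - v * (star v * x * v)) * star v =
        (x * (v * star v) - v * star v * x) - v * (star v * x * v * star v - star v * x) := by
      simp only [sub_mul, mul_sub, mul_assoc]; abel
    rw [e4, sub_apply, mul_apply_eq_comp]
    refine (norm_sub_le _ _).trans ?_
    rw [hv.norm_apply]
    linarith [(hA v v hv hv).1, (hA v v hv hv).2]

lemma exists_isLim (D : Modular S) (h : Homog S) {x : H →L[ℂ] H} (hx : x ∈ S.B) (h0 : 0 < ρ)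
    (h1 : ρ ≤ 1) : ∃ b, IsLim S ρ x b := by
  choose v hv using fun n : ℕ => exists_scal h h0.le h1 (show (0:ℝ) < 1 / (n + 1) by positivity)
  set a := fun n => star (v n) * x * v n
  have haM : ∀ n, a n ∈ S.M := fun n => mul_mem (mul_mem (star_mem (hv n).mem) hx.1) (hv n).mem
  have haC : ∀ n, ‖a n‖ ≤ ‖x‖ := fun n =>
    ((norm_mul_le _ _).trans (mul_le_mul_of_nonneg_right (norm_mul_le _ _) (norm_nonneg _))).trans
      ((mul_le_of_le_one_right (by positivity) (hv n).norm_le).trans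
        (mul_le_of_le_one_left (norm_nonneg _) (hv n).norm_star_le))
  have hev : ∀ δ > (0:ℝ), ∃ N, ∀ n ≥ N, Scal S ρ δ (v n) := by
    intro δ hδ
    obtain ⟨N, hN⟩ := exists_nat_one_div_lt hδ
    refine ⟨N, fun n hn => (hv n).mono (le_trans ?_ hN.le)⟩
    exact one_div_le_one_div_of_le (by positivity) (by exact_mod_cast Nat.succ_le_succ hn)
  have hcs : CauchySeq fun n => a n S.Ω := by
    rw [Metric.cauchySeq_iff]
    intro ε hε
    obtain ⟨δ, hδ, hd⟩ := lim_uniform hx h0 h1 (half_pos hε)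
    obtain ⟨N, hN⟩ := hev δ hδ
    refine ⟨N, fun m hm n hn => ?_⟩
    rw [dist_eq_norm, ← sub_apply]
    exact ((hd _ _ (hN n hn) (hN m hm)).1).trans_lt (half_lt_self hε)
  obtain ⟨b, hbM, hbn, hb⟩ := D.exists_limit haM haC hcs
  refine ⟨b, hbM, hbn, fun ε hε => ?_⟩
  obtain ⟨δ, hδ, hd⟩ := lim_uniform hx h0 h1 (half_pos hε)
  refine ⟨δ, hδ, fun w hw => ?_⟩
  have e : x * w - w * b = (x * w - w * (star w * x * w)) + w * (star w * x * w - b) := by
    rw [mul_sub]; abel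
  rw [e, add_apply, mul_apply_eq_comp]
  refine (norm_add_le _ _).trans ?_
  rw [hw.norm_apply]
  have h3 : ‖(star w * x * w - b) S.Ω‖ ≤ ε / 2 := by
    refine le_of_tendsto (f := fun n => ‖(star w * x * w) S.Ω - a n S.Ω‖)
      ((tendsto_const_nhds.sub (hb S.Ω)).norm) ?_
    obtain ⟨N, hN⟩ := hev δ hδ
    filter_upwards [eventually_ge_atTop N] with n hn
    rw [← sub_apply]
    exact (hd _ _ (hN n hn) hw).1
  linarith [(hd w w hw hw).2.1]

end Modular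

namespace IsLim

variable {S : Std H} {ρ ρ' : ℝ} {x y b b' c : H →L[ℂ] H}

lemma compress (hl : IsLim S ρ x b) {ε : ℝ} (hε : 0 < ε) :
    ∃ δ > 0, ∀ v, Scal S ρ δ v → ‖(star v * x * v - b) S.Ω‖ ≤ ε := by
  obtain ⟨δ, hδ, hd⟩ := hl.2.2 ε hε
  refine ⟨δ, hδ, fun v hv => ?_⟩
  rw [show star v * x * v - b = star v * (x * v - v * b) by
    rw [mul_sub, ← mul_assoc, ← mul_assoc, hv.iso, one_mul], mul_apply_eq_comp]
  exact (hv.norm_star_apply_le _).trans (hd v hv)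

lemma unique (h : Homog S) (h0 : 0 ≤ ρ) (h1 : ρ ≤ 1) (hl : IsLim S ρ x b)
    (hl' : IsLim S ρ x b') : b = b' := by
  refine Std.eq_of_Ω hl.1 hl'.1 (sub_eq_zero.1 (norm_le_zero_iff.1 ?_))
  refine le_of_forall_gt_imp_ge_of_dense fun ε hε => ?_
  obtain ⟨δ, hδ, hd⟩ := hl.2.2 _ (half_pos hε)
  obtain ⟨δ', hδ', hd'⟩ := hl'.2.2 _ (half_pos hε)
  obtain ⟨v, hv⟩ := exists_scal h h0 h1 (lt_min hδ hδ')
  have a1 := hd v (hv.mono (min_le_left _ _))
  have a2 := hd' v (hv.mono (min_le_right _ _))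
  have e : ‖b S.Ω - b' S.Ω‖ = ‖(x * v - v * b') S.Ω - (x * v - v * b) S.Ω‖ := by
    rw [← sub_apply, ← hv.norm_apply ((b - b') S.Ω), ← sub_apply,
      ← mul_apply_eq_comp, mul_sub]
    congr 1
    rw [show x * v - v * b' - (x * v - v * b) = v * b - v * b' by abel]
  rw [e]
  exact (norm_sub_le _ _).trans (by linarith)

/-- a candidate which works along some arbitrarily good isometries is the limit -/
lemma eq_of (hl : IsLim S ρ x b) (hc : c ∈ S.M)
    (h : ∀ ε > 0, ∀ δ > 0, ∃ v, Scal S ρ δ v ∧ ‖(x * v - v * c) S.Ω‖ ≤ ε) : c = b := by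
  refine Std.eq_of_Ω hc hl.1 (sub_eq_zero.1 (norm_le_zero_iff.1 ?_))
  refine le_of_forall_gt_imp_ge_of_dense fun ε hε => ?_
  obtain ⟨δ, hδ, hd⟩ := hl.2.2 _ (half_pos hε)
  obtain ⟨v, hv, hvc⟩ := h _ (half_pos hε) δ hδ
  have e : ‖c S.Ω - b S.Ω‖ = ‖(x * v - v * b) S.Ω - (x * v - v * c) S.Ω‖ := by
    rw [← sub_apply, ← hv.norm_apply ((c - b) S.Ω), ← sub_apply, ← mul_apply_eq_comp, mul_sub]
    congr 1
    rw [show x * v - v * b - (x * v - v * c) = v * c - v * b by abel]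
  rw [e]
  exact (norm_sub_le _ _).trans (by linarith [hd v hv])

lemma add (D : Modular S) (h : Homog S) (h0 : 0 < ρ) (h1 : ρ ≤ 1) (hxy : x + y ∈ S.B)
    (hl : IsLim S ρ x b) (hl' : IsLim S ρ y c) : IsLim S ρ (x + y) (b + c) := by
  obtain ⟨d, hd⟩ := D.exists_isLim h hxy h0 h1
  convert hd
  refine hd.eq_of (add_mem hl.1 hl'.1) fun ε hε δ hδ => ?_
  obtain ⟨δ1, hδ1, hd1⟩ := hl.2.2 _ (half_pos hε)
  obtain ⟨δ2, hδ2, hd2⟩ := hl'.2.2 _ (half_pos hε)
  obtain ⟨v, hv⟩ := exists_scal h h0.le h1 (lt_min hδ (lt_min hδ1 hδ2))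
  refine ⟨v, hv.mono (min_le_left _ _), ?_⟩
  rw [show (x + y) * v - v * (b + c) = (x * v - v * b) + (y * v - v * c) by
    rw [add_mul, mul_add]; abel, add_apply]
  refine (norm_add_le _ _).trans ?_
  linarith [hd1 v (hv.mono ((min_le_right _ _).trans (min_le_left _ _))),
    hd2 v (hv.mono ((min_le_right _ _).trans (min_le_right _ _)))]

lemma smul (z : ℂ) (hl : IsLim S ρ x b) : IsLim S ρ (z • x) (z • b) := by
  refine ⟨Std.smul_mem_M z hl.1, ?_, fun ε hε => ?_⟩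
  · rw [norm_smul, norm_smul]; exact mul_le_mul_of_nonneg_left hl.2.1 (norm_nonneg _)
  obtain ⟨δ, hδ, hd⟩ := hl.2.2 (ε / (‖z‖ + 1)) (by positivity)
  refine ⟨δ, hδ, fun v hv => ?_⟩
  rw [smul_mul_assoc, mul_smul_comm, ← smul_sub, smul_apply, norm_smul]
  calc ‖z‖ * ‖(x * v - v * b) S.Ω‖ ≤ (‖z‖ + 1) * (ε / (‖z‖ + 1)) :=
        mul_le_mul (by linarith) (hd v hv) (norm_nonneg _) (by positivity)
    _ = ε := by field_simp

lemma one (S : Std H) (ρ : ℝ) : IsLim S ρ (1 : H →L[ℂ] H) 1 :=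
  ⟨one_mem _, le_rfl, fun ε hε => ⟨1, one_pos, fun v _ => by simp [hε.le]⟩⟩

lemma self (hx : x ∈ S.M) : IsLim S 1 x x ↔ ∀ ε > 0, ∃ δ > 0, ∀ v, Scal S 1 δ v →
    ‖(x * v - v * x) S.Ω‖ ≤ ε :=
  ⟨fun h => h.2.2, fun h => ⟨hx, le_rfl, h⟩⟩

/-- a uniform strong form -/
lemma strong (D : Modular S) (hl : IsLim S ρ x b) (hxM : x ∈ S.M) (ξ : H) {ε : ℝ} (hε : 0 < ε) :
    ∃ δ > 0, ∀ v, Scal S ρ δ v → ‖(x * v - v * b) ξ‖ ≤ ε := by
  obtain ⟨e, he, hs⟩ := D.small_apply ξ (2 * ‖x‖) hε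
  obtain ⟨δ, hδ, hd⟩ := hl.2.2 e he
  refine ⟨δ, hδ, fun v hv => hs _ (sub_mem (mul_mem hxM hv.mem) (mul_mem hv.mem hl.1)) ?_ (hd v hv)⟩
  refine (norm_sub_le _ _).trans ?_
  have a1 := (norm_mul_le x v).trans (mul_le_of_le_one_right (norm_nonneg _) hv.norm_le)
  have a2 := (norm_mul_le v b).trans
    ((mul_le_of_le_one_left (norm_nonneg _) hv.norm_le).trans hl.2.1)
  linarith

lemma mul (D : Modular S) (h : Homog S) (h0 : 0 < ρ) (h1 : ρ ≤ 1) (hx : x ∈ S.M)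
    (hxy : x * y ∈ S.B) (hl : IsLim S ρ x b) (hl' : IsLim S ρ y c) :
    IsLim S ρ (x * y) (b * c) := by
  obtain ⟨d, hd⟩ := D.exists_isLim h hxy h0 h1
  convert hd
  refine hd.eq_of (mul_mem hl.1 hl'.1) fun ε hε δ hδ => ?_
  obtain ⟨δ1, hδ1, hd1⟩ := hl.strong D hx (c S.Ω) (half_pos hε)
  obtain ⟨δ2, hδ2, hd2⟩ := hl'.2.2 (ε / (2 * (‖x‖ + 1))) (by positivity)
  obtain ⟨v, hv⟩ := exists_scal h h0.le h1 (lt_min hδ (lt_min hδ1 hδ2))
  refine ⟨v, hv.mono (min_le_left _ _), ?_⟩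
  rw [show x * y * v - v * (b * c) = x * (y * v - v * c) + (x * v - v * b) * c by
    simp only [mul_sub, sub_mul, mul_assoc]; abel, add_apply, mul_apply_eq_comp,
    mul_apply_eq_comp (f := x * v - v * b)]
  refine (norm_add_le _ _).trans ?_
  have a1 := hd1 v (hv.mono ((min_le_right _ _).trans (min_le_left _ _)))
  have a2 : ‖x ((y * v - v * c) S.Ω)‖ ≤ ε / 2 := by
    refine (x.le_opNorm _).trans ?_
    calc ‖x‖ * ‖(y * v - v * c) S.Ω‖ ≤ (‖x‖ + 1) * (ε / (2 * (‖x‖ + 1))) :=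
          mul_le_mul (by linarith) (hd2 v (hv.mono ((min_le_right _ _).trans (min_le_right _ _))))
            (norm_nonneg _) (by positivity)
      _ = ε / 2 := by field_simp
  linarith

lemma star (D : Modular S) (h : Homog S) (h0 : 0 < ρ) (h1 : ρ ≤ 1) (hx : x ∈ S.M)
    (hxs : Star.star x ∈ S.B) (hl : IsLim S ρ x b) :
    IsLim S ρ (Star.star x) (Star.star b) := by
  obtain ⟨d, hd⟩ := D.exists_isLim h hxs h0 h1
  convert hd
  rw [ContinuousLinearMap.star_eq_adjoint]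
  refine ((ContinuousLinearMap.eq_adjoint_iff d b).2 fun ξ η => ?_).symm
  refine eq_of_forall_dist_le fun ε hε => ?_
  obtain ⟨δ1, hδ1, hd1⟩ := hd.strong D hxs.1 ξ (show (0:ℝ) < ε / (2 * (‖η‖ + 1)) by positivity)
  obtain ⟨δ2, hδ2, hd2⟩ := hl.strong D hx η (show (0:ℝ) < ε / (2 * (‖ξ‖ + 1)) by positivity)
  obtain ⟨v, hv⟩ := exists_scal h h0.le h1 (lt_min hδ1 hδ2)
  have a1 := hd1 v (hv.mono (min_le_left _ _))
  have a2 := hd2 v (hv.mono (min_le_right _ _))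
  have hin : ∀ p q : H, ⟪v p, v q⟫_ℂ = ⟪p, q⟫_ℂ := fun p q => by
    rw [← ContinuousLinearMap.adjoint_inner_right, ← ContinuousLinearMap.star_eq_adjoint,
      ← mul_apply_eq_comp, hv.iso]
    rfl
  have e : ⟪d ξ, η⟫_ℂ - ⟪ξ, b η⟫_ℂ =
      -⟪(Star.star x * v - v * d) ξ, v η⟫_ℂ + ⟪v ξ, (x * v - v * b) η⟫_ℂ := by
    simp only [sub_apply, mul_apply_eq_comp, inner_sub_left, inner_sub_right, hin,
      ContinuousLinearMap.star_eq_adjoint, ContinuousLinearMap.adjoint_inner_left]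
    ring
  rw [dist_eq_norm, e]
  refine (norm_add_le _ _).trans ?_
  rw [norm_neg]
  have b1 : ‖⟪(Star.star x * v - v * d) ξ, v η⟫_ℂ‖ ≤ ε / 2 := by
    refine (norm_inner_le_norm _ _).trans ?_
    rw [hv.norm_apply]
    calc _ ≤ ε / (2 * (‖η‖ + 1)) * (‖η‖ + 1) :=
          mul_le_mul a1 (by linarith) (norm_nonneg _) (by positivity)
      _ = ε / 2 := by field_simp
  have b2 : ‖⟪v ξ, (x * v - v * b) η⟫_ℂ‖ ≤ ε / 2 := by
    refine (norm_inner_le_norm _ _).trans ?_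
    rw [hv.norm_apply]
    calc _ ≤ (‖ξ‖ + 1) * (ε / (2 * (‖ξ‖ + 1))) :=
          mul_le_mul (by linarith) a2 (norm_nonneg _) (by positivity)
      _ = ε / 2 := by field_simp
  linarith

lemma σ (D : Modular S) (t : ℝ) (hl : IsLim S ρ x b) : IsLim S ρ (D.σ t x) (D.σ t b) := by
  refine ⟨D.σ_mem t b hl.1, ?_, fun ε hε => ?_⟩
  · rw [D.norm_σ, D.norm_σ]; exact hl.2.1
  obtain ⟨δ, hδ, hd⟩ := hl.2.2 ε hε
  refine ⟨δ, hδ, fun v hv => ?_⟩
  have h2 := hd _ (hv.σ D (-t))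
  rw [← D.norm_σ_apply_Ω t] at h2
  refine le_of_eq_of_le ?_ h2
  congr 2
  have e : D.σ t (x * D.σ (-t) v - D.σ (-t) v * b) =
      D.σ t x * D.σ t (D.σ (-t) v) - D.σ t (D.σ (-t) v) * D.σ t b := by
    rw [D.σ_sub, D.σ_mul, D.σ_mul]
  rw [e, D.σ_σ, add_neg_cancel, D.σ_zero]

lemma comp (D : Modular S) (h : Homog S) (h0 : 0 < ρ) (h1 : ρ ≤ 1) (h0' : 0 < ρ') (h1' : ρ' ≤ 1)
    (hx : x ∈ S.B) (hl : IsLim S ρ' x b') (hl' : IsLim S ρ b' b) : IsLim S (ρ' * ρ) x b := by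
  obtain ⟨d, hd⟩ := D.exists_isLim h hx (mul_pos h0' h0) (mul_le_one₀ h1' h0.le h1)
  convert hd
  refine hd.eq_of hl'.1 fun ε hε δ hδ => ?_
  set X := ‖x‖ + 1
  obtain ⟨δ1, hδ1, hd1⟩ := hl.2.2 (ρ * ε ^ 2 / (16 * X)) (by positivity)
  obtain ⟨δ2, hδ2, hd2⟩ := hl'.2.2 (ε / 2) (half_pos hε)
  set δ3 := min (min (δ / 2) δ2) (ρ * ε ^ 2 / (32 * X ^ 2))
  have hδ3 : 0 < δ3 := lt_min (lt_min (half_pos hδ) hδ2) (by positivity)
  obtain ⟨v', hv'⟩ := exists_scal h h0'.le h1' (lt_min hδ1 (half_pos hδ))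
  obtain ⟨v, hv⟩ := exists_scal h h0.le h1 hδ3
  refine ⟨v' * v, ?_, ?_⟩
  · refine (hv.comp hv' (by rwa [abs_of_pos h0']) hδ3.le (lt_min hδ1 (half_pos hδ)).le).mono ?_
    linarith [min_le_right δ1 (δ / 2), (min_le_left (min (δ / 2) δ2) (ρ * ε ^ 2 / (32 * X ^ 2))).trans
      (min_le_left (δ / 2) δ2)]
  set a := x * v' - v' * b' with ha
  have hX0 : X ≠ 0 := by
    have := norm_nonneg x
    positivity
  have haM : a ∈ S.M := sub_mem (mul_mem hx.1 hv'.mem) (mul_mem hv'.mem hl.1)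
  have han : ‖a‖ ≤ 2 * X := by
    refine (norm_sub_le _ _).trans ?_
    have q1 := (norm_mul_le x v').trans (mul_le_of_le_one_right (norm_nonneg _) hv'.norm_le)
    have q2 := (norm_mul_le v' b').trans
      ((mul_le_of_le_one_left (norm_nonneg _) hv'.norm_le).trans hl.2.1)
    linarith
  rw [show x * (v' * v) - v' * v * b = a * v + v' * (b' * v - v * b) by
    simp only [ha, sub_mul, mul_sub, mul_assoc]; abel, add_apply, mul_apply_eq_comp (f := v')]
  refine (norm_add_le _ _).trans ?_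
  rw [hv'.norm_apply]
  have a1 := hd1 v' (hv'.mono (min_le_left _ _))
  have a2 := hd2 v (hv.mono ((min_le_left _ _).trans (min_le_right _ _)))
  have a3 : ‖(a * v) S.Ω‖ ≤ ε / 2 := by
    have h4 := hv.norm_mul_le hδ3.le haM
    have h5 : ‖a‖ * ‖a S.Ω‖ ≤ ρ * ε ^ 2 / 8 :=
      calc ‖a‖ * ‖a S.Ω‖ ≤ 2 * X * (ρ * ε ^ 2 / (16 * X)) :=
            mul_le_mul han a1 (norm_nonneg _) (by positivity)
        _ = ρ * ε ^ 2 / 8 := by field_simp; ring_nf
    have h6 : δ3 * ‖a‖ ^ 2 ≤ ρ * ε ^ 2 / 8 :=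
      calc δ3 * ‖a‖ ^ 2 ≤ ρ * ε ^ 2 / (32 * X ^ 2) * (2 * X) ^ 2 :=
            mul_le_mul (min_le_right _ _) (pow_le_pow_left₀ (norm_nonneg _) han 2) (sq_nonneg _)
              (by positivity)
        _ = ρ * ε ^ 2 / 8 := by field_simp; ring_nf
    have h7 : ρ * ‖(a * v) S.Ω‖ ^ 2 ≤ ρ * (ε / 2) ^ 2 := by
      rw [show ρ * (ε / 2) ^ 2 = ρ * ε ^ 2 / 4 by ring]; linarith
    exact (sq_le_sq₀ (norm_nonneg _) (half_pos hε).le).1 (le_of_mul_le_mul_left h7 h0)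
  linarith

/-- the limit again lies in the bicentralizer -/
lemma mem_B (D : Modular S) (h : Homog S) (h0 : 0 < ρ) (h1 : ρ ≤ 1) (hx : x ∈ S.B)
    (hl : IsLim S ρ x b) : b ∈ S.B := by
  refine D.mem_B hl.1 fun C₀ ε hε => ?_
  set C := max C₀ 1 with hC
  have hC1 : 1 ≤ C := le_max_right _ _
  set X := ‖x‖ + 1
  have hX1 : 1 ≤ X := le_add_of_nonneg_left (norm_nonneg _)
  set κ := √ρ * ε / 10
  have hκ : 0 < κ := by positivity
  obtain ⟨η0, hη0, hB⟩ := Modular.B_uniform hx C hκ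
  set δ1 := min (min (κ / C) (ε ^ 2 / (100 * C ^ 2 * X))) (ε / (4 * C))
  have hδ1 : 0 < δ1 := lt_min (lt_min (by positivity) (by positivity)) (by positivity)
  obtain ⟨δa, hδa, hda⟩ := Modular.lim_uniform hx h0 h1 hδ1
  obtain ⟨δb, hδb, hdb⟩ := hl.compress hδ1
  set δv := min (min δa δb) (min (η0 / (4 * C)) (ρ * ε ^ 2 / (100 * X ^ 2 * C ^ 2)))
  have hδv : 0 < δv := lt_min (lt_min hδa hδb) (lt_min (by positivity) (by positivity))
  obtain ⟨v, hv⟩ := exists_scal h h0.le h1 hδv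
  refine ⟨min (η0 / 2) (ε ^ 2 / (100 * C * X ^ 2)), lt_min (by positivity) (by positivity),
    fun w hw hwC₀ hwc => ?_⟩
  have hwC : ‖w‖ ≤ C := hwC₀.trans (le_max_left _ _)
  set bv := Star.star v * x * v with hbv
  have hbvM : bv ∈ S.M := mul_mem (mul_mem (star_mem hv.mem) hx.1) hv.mem
  have hbvn : ‖bv‖ ≤ ‖x‖ :=
    ((norm_mul_le _ _).trans (mul_le_mul_of_nonneg_right (norm_mul_le _ _) (norm_nonneg _))).trans
      ((mul_le_of_le_one_right (by positivity) hv.norm_le).trans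
        (mul_le_of_le_one_left (norm_nonneg _) hv.norm_star_le))
  have haΩ : ‖(b - bv) S.Ω‖ ≤ δ1 := by
    have := hdb v (hv.mono ((min_le_left _ _).trans (min_le_right _ _)))
    rwa [← neg_sub, neg_apply, norm_neg] at this
  have q1 : ‖(bv * Star.star v - Star.star v * x) S.Ω‖ ≤ δ1 :=
    (hda v v (hv.mono ((min_le_left _ _).trans (min_le_left _ _)))
      (hv.mono ((min_le_left _ _).trans (min_le_left _ _)))).2.2
  have hu : ‖(x * (v * w * Star.star v) - v * w * Star.star v * x) S.Ω‖ ≤ κ := by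
    refine hB _ (mul_mem (mul_mem hv.mem hw) (star_mem hv.mem)) ?_ ?_
    · exact ((norm_mul_le _ _).trans (mul_le_of_le_one_right (norm_nonneg _) hv.norm_star_le)).trans
        ((norm_mul_le _ _).trans ((mul_le_of_le_one_left (norm_nonneg _) hv.norm_le).trans hwC))
    · intro y hy
      refine (hv.nearlyCentral_conj hv (by rwa [abs_of_pos h0]) (lt_min (by positivity)
        (by positivity)).le hδv.le hw hwC hwc y hy).trans
        (mul_le_mul_of_nonneg_right ?_ (norm_nonneg _))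
      have : δv ≤ η0 / (4 * C) := (min_le_right _ _).trans (min_le_left _ _)
      rw [le_div_iff₀ (by positivity)] at this
      linarith [min_le_left (η0 / 2) (ε ^ 2 / (100 * C * X ^ 2))]
  -- the commutator of the compression
  have q2 : ‖(((bv * w - w * bv)) * Star.star v) S.Ω‖ ≤ κ + C * δ1 := by
    rw [show (bv * w - w * bv) * Star.star v =
        Star.star v * (x * (v * w * Star.star v) - v * w * Star.star v * x) -
          w * (bv * Star.star v - Star.star v * x) by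
      simp only [hbv, mul_sub, sub_mul, mul_assoc]
      rw [← mul_assoc (Star.star v) v (w * (Star.star v * x)), hv.iso, one_mul]
      abel, sub_apply, mul_apply_eq_comp, mul_apply_eq_comp (f := w)]
    refine (norm_sub_le _ _).trans (add_le_add ((hv.norm_star_apply_le _).trans hu) ?_)
    exact (w.le_opNorm _).trans (mul_le_mul hwC q1 (norm_nonneg _) (by positivity))
  have hzn : ‖bv * w - w * bv‖ ≤ 2 * X * C := by
    refine (norm_sub_le _ _).trans ?_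
    have r1 := (norm_mul_le bv w).trans (mul_le_mul hbvn hwC (norm_nonneg _) (norm_nonneg _))
    have r2 := (norm_mul_le w bv).trans (mul_le_mul hwC hbvn (norm_nonneg _) (by positivity))
    linarith
  have q3 : ‖(bv * w - w * bv) S.Ω‖ ≤ ε / 3 := by
    have h4 := hv.le_norm_mul_star hδv.le (a := bv * w - w * bv)
      (sub_mem (mul_mem hbvM hw) (mul_mem hw hbvM))
    have h5 : (κ + C * δ1) ^ 2 ≤ ρ * ε ^ 2 / 25 := by
      have : C * δ1 ≤ κ := by
        have := (min_le_left _ _).trans (min_le_left _ _) |> fun t : δ1 ≤ κ / C => t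
        rw [le_div_iff₀ (by positivity)] at this
        linarith
      calc (κ + C * δ1) ^ 2 ≤ (2 * κ) ^ 2 :=
            pow_le_pow_left₀ (by positivity) (by linarith) 2
        _ = √ρ ^ 2 * ε ^ 2 / 25 := by ring
        _ = ρ * ε ^ 2 / 25 := by rw [Real.sq_sqrt h0.le]
    have h6 : δv * ‖bv * w - w * bv‖ ^ 2 ≤ ρ * ε ^ 2 / 25 :=
      calc δv * ‖bv * w - w * bv‖ ^ 2 ≤ ρ * ε ^ 2 / (100 * X ^ 2 * C ^ 2) * (2 * X * C) ^ 2 :=
            mul_le_mul ((min_le_right _ _).trans (min_le_right _ _))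
              (pow_le_pow_left₀ (norm_nonneg _) hzn 2) (sq_nonneg _) (by positivity)
        _ = ρ * ε ^ 2 / 25 := by field_simp; ring
    have h7 : ρ * ‖(bv * w - w * bv) S.Ω‖ ^ 2 ≤ ρ * (ε / 3) ^ 2 := by
      have := pow_le_pow_left₀ (norm_nonneg _) q2 2
      rw [show ρ * (ε / 3) ^ 2 = ρ * ε ^ 2 / 9 by ring]
      linarith [mul_nonneg h0.le (sq_nonneg ε)]
    exact (sq_le_sq₀ (norm_nonneg _) (by positivity)).1 (le_of_mul_le_mul_left h7 h0)
  -- the two error terms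
  have han : ‖b - bv‖ ≤ 2 * X := (norm_sub_le _ _).trans (by linarith [hl.2.1])
  have q4 : ‖((b - bv) * w) S.Ω‖ ≤ ε / 3 := by
    have h4 := Std.norm_mul_Ω_sq_le (sub_mem hl.1 hbvM) hw
      (lt_min (by positivity) (by positivity) : (0:ℝ) < min (η0 / 2) (ε ^ 2 / (100 * C * X ^ 2))).le
      hwc hwC
    have h5 : C ^ 2 * ‖b - bv‖ * ‖(b - bv) S.Ω‖ ≤ ε ^ 2 / 50 :=
      calc C ^ 2 * ‖b - bv‖ * ‖(b - bv) S.Ω‖ ≤ C ^ 2 * (2 * X) * (ε ^ 2 / (100 * C ^ 2 * X)) :=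
            mul_le_mul (mul_le_mul_of_nonneg_left han (sq_nonneg _))
              (haΩ.trans ((min_le_left _ _).trans (min_le_right _ _))) (norm_nonneg _)
              (by positivity)
        _ = ε ^ 2 / 50 := by field_simp; ring
    have h6 : min (η0 / 2) (ε ^ 2 / (100 * C * X ^ 2)) * C * ‖b - bv‖ ^ 2 ≤ ε ^ 2 / 25 :=
      calc _ ≤ ε ^ 2 / (100 * C * X ^ 2) * C * (2 * X) ^ 2 :=
            mul_le_mul (mul_le_mul_of_nonneg_right (min_le_right _ _) (by positivity))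
              (pow_le_pow_left₀ (norm_nonneg _) han 2) (sq_nonneg _) (by positivity)
        _ = ε ^ 2 / 25 := by field_simp; ring
    refine (sq_le_sq₀ (norm_nonneg _) (by positivity)).1 ?_
    rw [show (ε / 3) ^ 2 = ε ^ 2 / 9 by ring]
    linarith [sq_nonneg ε]
  have q5 : ‖(w * (b - bv)) S.Ω‖ ≤ ε / 3 := by
    rw [mul_apply_eq_comp]
    refine ((w.le_opNorm _).trans
      (mul_le_mul hwC (haΩ.trans (min_le_right _ _)) (norm_nonneg _) (by positivity))).trans ?_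
    rw [mul_div_assoc', div_le_iff₀ (by positivity)]
    nlinarith
  rw [show b * w - w * b = (bv * w - w * bv) + (b - bv) * w - w * (b - bv) by
    rw [sub_mul, mul_sub]; abel, sub_apply, add_apply]
  linarith [norm_sub_le ((bv * w - w * bv) S.Ω + ((b - bv) * w) S.Ω) ((w * (b - bv)) S.Ω),
    norm_add_le ((bv * w - w * bv) S.Ω) (((b - bv) * w) S.Ω)]

end IsLim

end P132
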