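import Vale.Agent.P132.Flow.Cmp

/-!
# P132: the compression map is onto; inverse along tuples with equal weights
-/

noncomputable section

namespace P132

open Filter Topology Complex
open scoped InnerProductSpace

variable {H : Type*} [NormedAddCommGroup H] [InnerProductSpace ℂ H] [CompleteSpace H]

/-- The diagonal matrix. -/
def diagM {n : ℕ} (b : Fin n → H →L[ℂ] H) (k l : Fin n) : H →L[ℂ] H := if k = l then b k else 0

lemma diagM_mem {S : Std H} {n : ℕ} {b : Fin n → H →L[ℂ] H} (hb : ∀ k, b k ∈ S.M) (k l : Fin n) :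
    diagM b k l ∈ S.M := by
  rw [diagM]; split_ifs
  exacts [hb k, zero_mem _]

omit [CompleteSpace H] in
lemma matBound_diagM {n : ℕ} {b : Fin n → H →L[ℂ] H} {X : ℝ} (hX : ∀ k, ‖b k‖ ≤ X) :
    MatBound (diagM b) X := by
  intro v
  rw [Finset.mul_sum]
  refine Finset.sum_le_sum fun k _ => ?_
  rw [Finset.sum_eq_single k (fun l _ hl => by simp [diagM, Ne.symm hl]) (by simp), diagM, if_pos rfl,
    ← mul_pow]
  exact pow_le_pow_left₀ (norm_nonneg _)
    (((b k).le_opNorm _).trans (mul_le_mul_of_nonneg_right (hX k) (norm_nonneg _))) 2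

namespace Tuple

variable {S : Std H} {n : ℕ} {ρ : Fin n → ℝ} {ε : ℝ} {s : Fin n → H →L[ℂ] H}
  {b : Fin n → H →L[ℂ] H}

lemma carry_diag_mul (h : Tuple S ρ ε s) (l : Fin n) : carry s (diagM b) * s l = s l * b l := by
  rw [h.carry_mul, Finset.sum_eq_single l (fun k _ hk => by simp [diagM, hk]) (by simp), diagM,
    if_pos rfl]

lemma star_mul_carry_diag (h : Tuple S ρ ε s) (k : Fin n) :
    star (s k) * carry s (diagM b) = b k * star (s k) := by
  rw [h.star_mul_carry, Finset.sum_eq_single k (fun l _ hl => by simp [diagM, Ne.symm hl]) (by simp),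
    diagM, if_pos rfl]

end Tuple

namespace Scal

variable {S : Std H} {ρ ε : ℝ} {v v' : H →L[ℂ] H}

/-- `v* w v'` is nearly centralizing when `w` is -/
lemma nearlyCentral_compress (h : Scal S ρ ε v) (h' : Scal S ρ ε v') (hρ : 0 < ρ) (hε : 0 ≤ ε)
    {η C : ℝ} (hη : 0 ≤ η) {w : H →L[ℂ] H} (hw : w ∈ S.M) (hwC : ‖w‖ ≤ C)
    (hc : S.NearlyCentral η w) :
    S.NearlyCentral ((2 * ε * C + η) / ρ) (star v * w * v') := by
  intro y hy
  have hyn := norm_nonneg y
  have hC : 0 ≤ C := (norm_nonneg _).trans hwC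
  have a1 := h.approx (w * v' * y) (mul_mem (mul_mem hw h'.mem) hy)
  have a2 := hc (v' * y * star v) (mul_mem (mul_mem h'.mem hy) (star_mem h.mem))
  have a3 := h'.approx' (y := y * star v * w) (mul_mem (mul_mem hy (star_mem h.mem)) hw)
  have b1 : ‖w * v' * y‖ ≤ C * ‖y‖ :=
    (_root_.norm_mul_le _ _).trans (mul_le_mul_of_nonneg_right
      (((_root_.norm_mul_le _ _).trans (mul_le_of_le_one_right (norm_nonneg _) h'.norm_le)).trans
        hwC) hyn)
  have b2 : ‖v' * y * star v‖ ≤ ‖y‖ :=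
    ((_root_.norm_mul_le _ _).trans (mul_le_of_le_one_right (norm_nonneg _) h.norm_star_le)).trans
      ((_root_.norm_mul_le _ _).trans (mul_le_of_le_one_left hyn h'.norm_le))
  have b3 : ‖y * star v * w‖ ≤ C * ‖y‖ := by
    refine (_root_.norm_mul_le _ _).trans ?_
    rw [mul_comm C]
    exact mul_le_mul ((_root_.norm_mul_le _ _).trans (mul_le_of_le_one_right hyn h.norm_star_le))
      hwC (norm_nonneg _) hyn
  have c1 := a1.trans (mul_le_mul_of_nonneg_left b1 hε)
  have c2 := a2.trans (mul_le_mul_of_nonneg_left b2 hη)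
  have c3 := a3.trans (mul_le_mul_of_nonneg_left b3 hε)
  rw [div_mul_eq_mul_div, le_div_iff₀ hρ, mul_comm, ← Real.norm_of_nonneg hρ.le,
    ← Complex.norm_real, ← norm_mul]
  have e : (ρ : ℂ) * (S.φ (y * (star v * w * v')) - S.φ (star v * w * v' * y)) =
      -(S.φ (v' * (y * star v * w)) - ρ * S.φ (y * star v * w * v')) +
      (S.φ (v' * y * star v * w) - S.φ (w * (v' * y * star v))) +
      (S.φ (w * v' * y * star v) - ρ * S.φ (star v * (w * v' * y))) := by
    simp only [mul_assoc]; ring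
  rw [e]
  refine (norm_add₃_le ..).trans ?_
  rw [norm_neg]
  linarith

end Scal

/-- equal weights -/
abbrev unifW (n : ℕ) : Fin n → ℝ := fun _ => 1 / n

/-- `x` is the limit of `∑ s_k y s_k*` along good tuples with equal weights -/
def IsExt (S : Std H) (n : ℕ) (y x : H →L[ℂ] H) : Prop :=
  x ∈ S.M ∧ ‖x‖ ≤ ‖y‖ ∧ ∀ ε > 0, ∃ δ > 0, ∀ s : Fin n → H →L[ℂ] H, Tuple S (unifW n) δ s →
    ‖(x - carry s (diagM fun _ => y)) S.Ω‖ ≤ ε

namespace Modular

variable {S : Std H} (D : Modular S) {n : ℕ} {x y : H →L[ℂ] H}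
include D

omit D in
lemma ext_uniform (hy : y ∈ S.B) (hn : 0 < n) {ε : ℝ} (hε : 0 < ε) :
    ∃ δ > 0, ∀ s t : Fin n → H →L[ℂ] H, Tuple S (unifW n) δ s → Tuple S (unifW n) δ t →
      ‖(carry s (diagM fun _ => y) - carry t (diagM fun _ => y)) S.Ω‖ ≤ ε := by
  have hn' : (1 : ℝ) ≤ n := by exact_mod_cast hn
  set e := ε / (2 * n)
  obtain ⟨η, hη, hB⟩ := Modular.B_uniform hy 1 (show 0 < e by positivity)
  set δ := min (η / (2 * n)) (ε ^ 2 / (8 * (‖y‖ ^ 2 + 1)))
  have hδ : 0 < δ := lt_min (by positivity) (by positivity)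
  refine ⟨δ, hδ, fun s t hs ht => ?_⟩
  set A := carry s (diagM fun _ => y)
  set A' := carry t (diagM fun _ => y)
  have hA : A ∈ S.M := hs.carry_mem (diagM_mem fun _ => hy.1)
  have hA' : A' ∈ S.M := ht.carry_mem (diagM_mem fun _ => hy.1)
  have hAn : ‖A - A'‖ ≤ 2 * ‖y‖ := by
    refine (norm_sub_le _ _).trans ?_
    linarith [hs.norm_carry_le (norm_nonneg y) (matBound_diagM fun _ => le_rfl),
      ht.norm_carry_le (norm_nonneg y) (matBound_diagM fun _ => le_rfl)]
  have hc : ∀ k j, ‖(y * (star (s k) * t j) - star (s k) * t j * y) S.Ω‖ ≤ e := by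
    intro k j
    refine hB _ (mul_mem (star_mem (hs.mem k)) (ht.mem j)) ?_ fun z hz => ?_
    · exact (norm_mul_le _ _).trans
        (mul_le_one₀ ((norm_star _).le.trans (hs.norm_le k)) (norm_nonneg _) (ht.norm_le j))
    · have := (hs.scal hδ.le k).nearlyCentral_compress (ht.scal hδ.le j) (by positivity) hδ.le le_rfl
        (one_mem S.M) ContinuousLinearMap.norm_id_le (fun y _ => by simp) z hz
      rw [mul_one] at this
      refine this.trans (mul_le_mul_of_nonneg_right ?_ (norm_nonneg _))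
      rw [div_le_iff₀ (by positivity), add_zero, mul_one_div]
      have h2 : δ ≤ η / (2 * n) := min_le_left _ _
      rw [le_div_iff₀ (by positivity)] at h2 ⊢
      linarith
  have hcol : ∀ j, ‖((A - A') * t j) S.Ω‖ ^ 2 ≤ n * e ^ 2 := by
    intro j
    have e1 : (A - A') * t j =
        ∑ k, s k * (y * (star (s k) * t j) - star (s k) * t j * y) := by
      calc (A - A') * t j = (∑ k, s k * star (s k)) * (A * t j) -
            (∑ k, s k * star (s k)) * (t j * y) := by
            rw [sub_mul, hs.total, ht.carry_diag_mul, one_mul, one_mul]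
        _ = _ := by
            simp only [Finset.sum_mul, ← Finset.sum_sub_distrib, mul_sub]
            refine Finset.sum_congr rfl fun k _ => ?_
            rw [mul_assoc (s k), ← mul_assoc (star (s k)) A, hs.star_mul_carry_diag]
            simp only [mul_assoc]
    rw [e1, sum_apply]
    simp only [mul_apply_eq_comp]
    rw [hs.norm_sum_apply]
    refine (Finset.sum_le_sum fun k _ => pow_le_pow_left₀ (norm_nonneg _) (hc k j) 2).trans ?_
    simp
  have h1 := (abs_le.1 (ht.norm_sq_approx (sub_mem hA hA'))).2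
  have h2 : ∑ j, unifW n j * ‖((A - A') * t j) S.Ω‖ ^ 2 ≤ ε ^ 2 / 4 := by
    refine (Finset.sum_le_sum fun j _ => mul_le_mul_of_nonneg_left (hcol j) (by positivity)).trans ?_
    simp only [unifW, Finset.sum_const, Finset.card_univ, Fintype.card_fin, nsmul_eq_mul]
    calc (n : ℝ) * (1 / n * (n * e ^ 2)) = ε ^ 2 / (4 * n) := by simp only [e]; field_simp; ring
      _ ≤ ε ^ 2 / 4 := by gcongr; linarith
  have h3 : δ * ‖A - A'‖ ^ 2 ≤ ε ^ 2 / 2 := by
    calc δ * ‖A - A'‖ ^ 2 ≤ ε ^ 2 / (8 * (‖y‖ ^ 2 + 1)) * (4 * (‖y‖ ^ 2 + 1)) := by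
          refine mul_le_mul (min_le_right _ _) ?_ (sq_nonneg _) (by positivity)
          nlinarith [pow_le_pow_left₀ (norm_nonneg _) hAn 2]
      _ = ε ^ 2 / 2 := by field_simp; ring
  refine (sq_le_sq₀ (norm_nonneg _) hε.le).1 ?_
  linarith [sq_nonneg ε]

lemma exists_isExt (h : Homog S) (hy : y ∈ S.B) (hn : 0 < n) : ∃ x, IsExt S n y x := by
  have hn' : (n : ℝ) ≠ 0 := by positivity
  choose s hs using fun m : ℕ => exists_tuple h (ρ := unifW n) (fun _ => by positivity)
    (by simp [hn']) (show (0:ℝ) < 1 / (m + 1) by positivity)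
  set a := fun m => carry (s m) (diagM fun _ => y)
  have hev : ∀ δ > (0:ℝ), ∃ N, ∀ m ≥ N, Tuple S (unifW n) δ (s m) := by
    intro δ hδ
    obtain ⟨N, hN⟩ := exists_nat_one_div_lt hδ
    refine ⟨N, fun m hm => ⟨(hs m).mem, (hs m).iso, (hs m).total, fun z hz => ((hs m).approx z hz).trans
      (mul_le_mul_of_nonneg_right (le_trans (one_div_le_one_div_of_le (by positivity)
        (by exact_mod_cast Nat.succ_le_succ hm)) hN.le) (norm_nonneg _))⟩⟩
  have hcs : CauchySeq fun m => a m S.Ω := by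
    rw [Metric.cauchySeq_iff]
    intro ε hε
    obtain ⟨δ, hδ, hd⟩ := ext_uniform hy hn (half_pos hε)
    obtain ⟨N, hN⟩ := hev δ hδ
    refine ⟨N, fun i hi j hj => ?_⟩
    rw [dist_eq_norm, ← sub_apply]
    exact (hd _ _ (hN i hi) (hN j hj)).trans_lt (half_lt_self hε)
  obtain ⟨x, hxM, hxn, hx⟩ := D.exists_limit (fun m => (hs m).carry_mem (diagM_mem fun _ => hy.1))
    (fun m => (hs m).norm_carry_le (norm_nonneg y) (matBound_diagM fun _ => le_rfl)) hcs
  refine ⟨x, hxM, hxn, fun ε hε => ?_⟩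
  obtain ⟨δ, hδ, hd⟩ := ext_uniform hy hn hε
  refine ⟨δ, hδ, fun t ht => ?_⟩
  refine le_of_tendsto (f := fun m => ‖a m S.Ω - carry t (diagM fun _ => y) S.Ω‖) (x := atTop) ?_ ?_
  · rw [sub_apply]; exact ((hx S.Ω).sub tendsto_const_nhds).norm
  · obtain ⟨N, hN⟩ := hev δ hδ
    filter_upwards [eventually_ge_atTop N] with m hm
    rw [← sub_apply]
    exact hd _ _ (hN m hm) ht

end Modular

namespace IsExt

variable {S : Std H} {n : ℕ} {x y : H →L[ℂ] H}

lemma mem_B (D : Modular S) (h : Homog S) (hy : y ∈ S.B) (hn : 0 < n) (hx : IsExt S n y x) :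
    x ∈ S.B := by
  refine D.mem_B hx.1 fun C₀ ε hε => ?_
  have hn' : (1 : ℝ) ≤ n := by exact_mod_cast hn
  set C := max C₀ 1
  have hC : 1 ≤ C := le_max_right _ _
  set Y := ‖y‖ + 1
  have hY : 1 ≤ Y := le_add_of_nonneg_left (norm_nonneg _)
  set e := ε / (4 * n)
  obtain ⟨η0, hη0, hB⟩ := Modular.B_uniform hy C (show 0 < e by positivity)
  obtain ⟨δ1, hδ1, hd1⟩ := hx.2.2 (min (ε / (4 * C)) (ε ^ 2 / (64 * C ^ 2 * Y)))
    (lt_min (by positivity) (by positivity))
  set δ := min δ1 (min (η0 / (4 * n * C)) (ε ^ 2 / (64 * Y ^ 2 * C ^ 2)))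
  have hδ : 0 < δ := lt_min hδ1 (lt_min (by positivity) (by positivity))
  have hn0 : (n : ℝ) ≠ 0 := by positivity
  obtain ⟨t, ht⟩ := exists_tuple h (ρ := unifW n) (fun _ => by positivity) (by simp [hn0]) hδ
  set η := min (η0 / (2 * n)) (ε ^ 2 / (128 * C * Y ^ 2))
  have hη : 0 < η := lt_min (by positivity) (by positivity)
  refine ⟨η, hη, fun w hw hwC₀ hwc => ?_⟩
  have hwC : ‖w‖ ≤ C := hwC₀.trans (le_max_left _ _)
  set A := carry t (diagM fun _ => y)
  have hA : A ∈ S.M := ht.carry_mem (diagM_mem fun _ => hy.1)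
  have hAn : ‖A‖ ≤ ‖y‖ := ht.norm_carry_le (norm_nonneg y) (matBound_diagM fun _ => le_rfl)
  have ht1 : Tuple S (unifW n) δ1 t := ⟨ht.mem, ht.iso, ht.total, fun z hz =>
    (ht.approx z hz).trans (mul_le_mul_of_nonneg_right (min_le_left _ _) (norm_nonneg _))⟩
  have haΩ := hd1 t ht1
  have hc : ∀ k l, ‖(y * (star (t k) * w * t l) - star (t k) * w * t l * y) S.Ω‖ ≤ e := by
    intro k l
    refine hB _ (mul_mem (mul_mem (star_mem (ht.mem k)) hw) (ht.mem l)) ?_ fun z hz => ?_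
    · refine ((_root_.norm_mul_le _ _).trans (mul_le_of_le_one_right (norm_nonneg _) (ht.norm_le l))).trans ?_
      exact ((_root_.norm_mul_le _ _).trans
        (mul_le_of_le_one_left (norm_nonneg _) ((norm_star _).le.trans (ht.norm_le k)))).trans hwC
    · refine ((ht.scal hδ.le k).nearlyCentral_compress (ht.scal hδ.le l) (by positivity) hδ.le hη.le
        hw hwC hwc z hz).trans (mul_le_mul_of_nonneg_right ?_ (norm_nonneg _))
      rw [div_le_iff₀ (by positivity), mul_one_div, le_div_iff₀ (by positivity)]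
      have h2 : δ ≤ η0 / (4 * n * C) := (min_le_right _ _).trans (min_le_left _ _)
      have h3 : η ≤ η0 / (2 * n) := min_le_left _ _
      rw [le_div_iff₀ (by positivity)] at h2 h3
      linarith
  have q1 : ‖(A * w - w * A) S.Ω‖ ≤ ε / 2 := by
    have h1 := (abs_le.1 (ht.norm_sq_approx (sub_mem (mul_mem hA hw) (mul_mem hw hA)))).2
    have hcol : ∀ l, ‖((A * w - w * A) * t l) S.Ω‖ ^ 2 ≤ n * e ^ 2 := by
      intro l
      have e1 : (A * w - w * A) * t l =
          ∑ k, t k * (y * (star (t k) * w * t l) - star (t k) * w * t l * y) := by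
        calc (A * w - w * A) * t l = (∑ k, t k * star (t k)) * (A * (w * t l)) -
              (∑ k, t k * star (t k)) * (w * (t l * y)) := by
              rw [sub_mul, mul_assoc w A, ht.carry_diag_mul, ht.total, one_mul, one_mul, mul_assoc]
          _ = _ := by
              simp only [Finset.sum_mul, ← Finset.sum_sub_distrib, mul_sub]
              refine Finset.sum_congr rfl fun k _ => ?_
              rw [mul_assoc (t k), ← mul_assoc (star (t k)) A, ht.star_mul_carry_diag]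
              simp only [mul_assoc]
      rw [e1, sum_apply]
      simp only [mul_apply_eq_comp]
      rw [ht.norm_sum_apply]
      refine (Finset.sum_le_sum fun k _ => pow_le_pow_left₀ (norm_nonneg _) ?_ 2).trans (b := ∑ _k : Fin n, e ^ 2) ?_
      · exact hc k l
      · simp
    have h2 : ∑ l, unifW n l * ‖((A * w - w * A) * t l) S.Ω‖ ^ 2 ≤ ε ^ 2 / 16 := by
      refine (Finset.sum_le_sum fun j _ => mul_le_mul_of_nonneg_left (hcol j) (by positivity)).trans ?_
      simp only [unifW, Finset.sum_const, Finset.card_univ, Fintype.card_fin, nsmul_eq_mul]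
      calc (n : ℝ) * (1 / n * (n * e ^ 2)) = ε ^ 2 / (16 * n) := by simp only [e]; field_simp; ring
        _ ≤ ε ^ 2 / 16 := by gcongr; linarith
    have hzn : ‖A * w - w * A‖ ≤ 2 * Y * C := by
      refine (norm_sub_le _ _).trans ?_
      have r1 := (norm_mul_le A w).trans
        (mul_le_mul (hAn.trans (by linarith : ‖y‖ ≤ Y)) hwC (norm_nonneg _) (by positivity))
      have r2 := (norm_mul_le w A).trans
        (mul_le_mul hwC (hAn.trans (by linarith : ‖y‖ ≤ Y)) (norm_nonneg _) (by positivity))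
      linarith
    have h3 : δ * ‖A * w - w * A‖ ^ 2 ≤ ε ^ 2 / 16 :=
      calc δ * ‖A * w - w * A‖ ^ 2 ≤ ε ^ 2 / (64 * Y ^ 2 * C ^ 2) * (2 * Y * C) ^ 2 :=
            mul_le_mul ((min_le_right _ _).trans (min_le_right _ _))
              (pow_le_pow_left₀ (norm_nonneg _) hzn 2) (sq_nonneg _) (by positivity)
        _ = ε ^ 2 / 16 := by field_simp; ring
    refine (sq_le_sq₀ (norm_nonneg _) (by positivity)).1 ?_
    rw [show (ε / 2) ^ 2 = ε ^ 2 / 4 by ring]
    linarith [sq_nonneg ε]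
  have han : ‖x - A‖ ≤ 2 * Y := (norm_sub_le _ _).trans (by linarith [hx.2.1])
  have q2 : ‖((x - A) * w) S.Ω‖ ≤ ε / 4 := by
    have h4 := Std.norm_mul_Ω_sq_le (sub_mem hx.1 hA) hw hη.le hwc hwC
    have h5 : C ^ 2 * ‖x - A‖ * ‖(x - A) S.Ω‖ ≤ ε ^ 2 / 32 :=
      calc C ^ 2 * ‖x - A‖ * ‖(x - A) S.Ω‖ ≤ C ^ 2 * (2 * Y) * (ε ^ 2 / (64 * C ^ 2 * Y)) :=
            mul_le_mul (mul_le_mul_of_nonneg_left han (sq_nonneg _))
              (haΩ.trans (min_le_right _ _)) (norm_nonneg _) (by positivity)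
        _ = ε ^ 2 / 32 := by field_simp; ring
    have h6 : η * C * ‖x - A‖ ^ 2 ≤ ε ^ 2 / 32 :=
      calc _ ≤ ε ^ 2 / (128 * C * Y ^ 2) * C * (2 * Y) ^ 2 :=
            mul_le_mul (mul_le_mul_of_nonneg_right (min_le_right _ _) (by positivity))
              (pow_le_pow_left₀ (norm_nonneg _) han 2) (sq_nonneg _) (by positivity)
        _ = ε ^ 2 / 32 := by field_simp; ring
    refine (sq_le_sq₀ (norm_nonneg _) (by positivity)).1 ?_
    rw [show (ε / 4) ^ 2 = ε ^ 2 / 16 by ring]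
    linarith
  have q3 : ‖(w * (x - A)) S.Ω‖ ≤ ε / 4 := by
    rw [mul_apply_eq_comp]
    refine ((w.le_opNorm _).trans
      (mul_le_mul hwC (haΩ.trans (min_le_left _ _)) (norm_nonneg _) (by positivity))).trans
      (le_of_eq ?_)
    field_simp
  rw [show x * w - w * x = (A * w - w * A) + (x - A) * w - w * (x - A) by
    rw [sub_mul, mul_sub]; abel, sub_apply, add_apply]
  linarith [norm_sub_le ((A * w - w * A) S.Ω + ((x - A) * w) S.Ω) ((w * (x - A)) S.Ω),
    norm_add_le ((A * w - w * A) S.Ω) (((x - A) * w) S.Ω)]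

lemma cmp_eq (D : Modular S) (h : Homog S) (hy : y ∈ S.B) (hn : 0 < n) (hx : IsExt S n y x) :
    S.cmp (1 / n) x = y := by
  have hn' : (1 : ℝ) ≤ n := by exact_mod_cast hn
  have hn0 : (n : ℝ) ≠ 0 := by positivity
  set Y := ‖y‖ + 1
  have hY0 : Y ≠ 0 := by positivity
  refine ((D.isLim_cmp h (hx.mem_B D h hy hn) (by positivity)
    ((div_le_one (by positivity)).2 hn')).eq_of hy.1 fun ε hε δ hδ => ?_).symm
  obtain ⟨δ1, hδ1, hd⟩ := hx.2.2 (ε ^ 2 / (4 * n * Y)) (by positivity)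
  set δ' := min (min δ δ1) (ε ^ 2 / (8 * n * Y ^ 2))
  have hδ' : 0 < δ' := lt_min (lt_min hδ hδ1) (by positivity)
  obtain ⟨t, ht⟩ := exists_tuple h (ρ := unifW n) (fun _ => by positivity) (by simp [hn0]) hδ'
  have ht1 : Tuple S (unifW n) δ1 t := ⟨ht.mem, ht.iso, ht.total, fun z hz => (ht.approx z hz).trans
    (mul_le_mul_of_nonneg_right ((min_le_left _ _).trans (min_le_right _ _)) (norm_nonneg _))⟩
  have hv := ht.scal hδ'.le ⟨0, hn⟩
  refine ⟨t ⟨0, hn⟩, hv.mono ((min_le_left _ _).trans (min_le_left _ _)), ?_⟩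
  set A := carry t (diagM fun _ => y)
  have hA : A ∈ S.M := ht.carry_mem (diagM_mem fun _ => hy.1)
  rw [← ht.carry_diag_mul (b := fun _ => y) ⟨0, hn⟩, ← sub_mul]
  have h4 := hv.norm_mul_le hδ'.le (sub_mem hx.1 hA)
  have han : ‖x - A‖ ≤ 2 * Y := (norm_sub_le _ _).trans (by
    linarith [hx.2.1, ht.norm_carry_le (norm_nonneg y) (matBound_diagM fun _ => le_rfl)])
  have h5 : ‖x - A‖ * ‖(x - A) S.Ω‖ ≤ ε ^ 2 / (2 * n) :=
    calc ‖x - A‖ * ‖(x - A) S.Ω‖ ≤ 2 * Y * (ε ^ 2 / (4 * n * Y)) :=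
          mul_le_mul han (hd t ht1) (norm_nonneg _) (by positivity)
      _ = ε ^ 2 / (2 * n) := by field_simp; ring
  have h6 : δ' * ‖x - A‖ ^ 2 ≤ ε ^ 2 / (2 * n) :=
    calc δ' * ‖x - A‖ ^ 2 ≤ ε ^ 2 / (8 * n * Y ^ 2) * (2 * Y) ^ 2 :=
          mul_le_mul (min_le_right _ _) (pow_le_pow_left₀ (norm_nonneg _) han 2) (sq_nonneg _)
            (by positivity)
      _ = ε ^ 2 / (2 * n) := by field_simp; ring
  have h7 : 1 / (n:ℝ) * ‖((x - A) * t ⟨0, hn⟩) S.Ω‖ ^ 2 ≤ 1 / (n:ℝ) * ε ^ 2 := by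
    have : ε ^ 2 / (2 * (n:ℝ)) + ε ^ 2 / (2 * n) = 1 / (n:ℝ) * ε ^ 2 := by field_simp; ring
    linarith
  exact (sq_le_sq₀ (norm_nonneg _) hε.le).1 (le_of_mul_le_mul_left h7 (by positivity))

lemma matBound {m : ℕ} (D : Modular S) (h : Homog S) (hn : 0 < n)
    {f e : Fin m → Fin m → H →L[ℂ] H} (hf : ∀ k l, f k l ∈ S.B)
    (he : ∀ k l, IsExt S n (f k l) (e k l)) {K : ℝ} (hK : MatBound f K) : MatBound e K := by
  intro ξ
  have hn0 : (n : ℝ) ≠ 0 := by positivity
  choose t ht using fun i : ℕ => exists_tuple h (ρ := unifW n) (fun _ => by positivity)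
    (by simp [hn0]) (show (0:ℝ) < 1 / (i + 1) by positivity)
  have hkl : ∀ k l, Tendsto (fun i => carry (t i) (diagM fun _ => f k l) (ξ l)) atTop
      (𝓝 (e k l (ξ l))) := by
    intro k l
    have h1 : Tendsto (fun i => ‖(e k l - carry (t i) (diagM fun _ => f k l)) S.Ω‖) atTop (𝓝 0) := by
      rw [NormedAddGroup.tendsto_nhds_zero]
      intro ε hε
      obtain ⟨δ, hδ, hd⟩ := (he k l).2.2 _ (half_pos hε)
      obtain ⟨N, hN⟩ := exists_nat_one_div_lt hδ
      filter_upwards [eventually_ge_atTop N] with i hi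
      rw [norm_norm]
      refine lt_of_le_of_lt (hd _ ⟨(ht i).mem, (ht i).iso, (ht i).total, fun z hz => ?_⟩)
        (half_lt_self hε)
      exact ((ht i).approx z hz).trans (mul_le_mul_of_nonneg_right (le_trans
        (one_div_le_one_div_of_le (by positivity) (by exact_mod_cast Nat.succ_le_succ hi)) hN.le)
        (norm_nonneg _))
    have h2 := D.tendsto_apply (a := fun i => e k l - carry (t i) (diagM fun _ => f k l))
      (C := 2 * ‖f k l‖)
      (fun i => sub_mem (he k l).1 ((ht i).carry_mem (diagM_mem fun _ => (hf k l).1)))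
      (fun i => (norm_sub_le _ _).trans (by
        linarith [(he k l).2.1, (ht i).norm_carry_le (norm_nonneg _)
          (matBound_diagM fun _ => le_refl ‖f k l‖)])) h1 (ξ l)
    simpa [sub_apply] using (tendsto_const_nhds (x := e k l (ξ l))).sub h2
  refine le_of_tendsto (tendsto_finsetSum Finset.univ fun k _ =>
    ((tendsto_finsetSum Finset.univ fun l _ => hkl k l).norm.pow 2)) (Eventually.of_forall fun i => ?_)
  have e1 : ∀ k, ∑ l, carry (t i) (diagM fun _ => f k l) (ξ l) =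
      ∑ j, t i j (∑ l, f k l (star (t i j) (ξ l))) := fun k => by
    simp only [_root_.map_sum]
    rw [Finset.sum_comm]
    refine Finset.sum_congr rfl fun l _ => ?_
    simp [carry, diagM, sum_apply, mul_apply_eq_comp]
  simp only [e1, (ht i).norm_sum_apply]
  rw [Finset.sum_comm]
  refine (Finset.sum_le_sum fun j _ => hK fun l => star (t i j) (ξ l)).trans_eq ?_
  rw [← Finset.mul_sum, Finset.sum_comm]
  simp only [(ht i).norm_sum_sq]

end IsExt

namespace Modular

variable {S : Std H} (D : Modular S) (h : Homog S) (hb : BFacts D) {ρ : ℝ} (h0 : 0 < ρ)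
  (h1 : ρ ≤ 1) {x y : H →L[ℂ] H}
include D h h0 h1

lemma exists_cmp_eq (hy : y ∈ S.B) : ∃ x ∈ S.B, S.cmp ρ x = y := by
  obtain ⟨n, hn⟩ := exists_nat_gt (1 / ρ)
  have hn0 : (0 : ℝ) < n := lt_trans (by positivity) hn
  have hn' : 0 < n := by exact_mod_cast hn0
  obtain ⟨z, hz⟩ := D.exists_isExt h hy hn'
  have hzB := hz.mem_B D h hy hn'
  have hρn : 1 / ((n:ℝ) * ρ) ≤ 1 := by
    rw [div_le_one (by positivity)]
    rw [div_lt_iff₀ h0] at hn
    exact hn.le
  refine ⟨S.cmp (1 / ((n:ℝ) * ρ)) z, D.cmp_mem h hzB (by positivity) hρn, ?_⟩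
  rw [← D.cmp_comp h h0 h1 (by positivity) hρn hzB, ← hz.cmp_eq D h hy hn']
  congr 1
  field_simp

include hb

lemma matBound_of_cmp {m : ℕ} {e : Fin m → Fin m → H →L[ℂ] H} (he : ∀ k l, e k l ∈ S.B) {K : ℝ}
    (heK : MatBound (fun k l => S.cmp ρ (e k l)) K) : MatBound e K := by
  obtain ⟨n, hn⟩ := exists_nat_gt (1 / ρ)
  have hn0 : (0 : ℝ) < n := lt_trans (by positivity) hn
  have hn' : 0 < n := by exact_mod_cast hn0
  have hρn : 1 / ((n:ℝ) * ρ) ≤ 1 := by
    rw [div_le_one (by positivity)]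
    rw [div_lt_iff₀ h0] at hn
    exact hn.le
  have hf := fun k l => D.cmp_mem h (he k l) h0 h1
  choose z hz using fun k l => D.exists_isExt h (hf k l) hn'
  have hzB := fun k l => (hz k l).mem_B D h (hf k l) hn'
  have he' : (fun k l => S.cmp (1 / ((n:ℝ) * ρ)) (z k l)) = e := by
    funext k l
    refine D.cmp_inj h hb h0 h1 (D.cmp_mem h (hzB k l) (by positivity) hρn) (he k l) ?_
    rw [← D.cmp_comp h h0 h1 (by positivity) hρn (hzB k l), ← (hz k l).cmp_eq D h (hf k l) hn']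
    congr 1
    field_simp
  rw [← he']
  exact D.matBound_cmp h (by positivity) hρn hzB (IsExt.matBound D h hn' hf hz heK)

lemma norm_le_cmp (hx : x ∈ S.B) : ‖x‖ ≤ ‖S.cmp ρ x‖ := by
  refine x.opNorm_le_bound (norm_nonneg _) fun v => ?_
  have := D.matBound_of_cmp h hb h0 h1 (m := 1) (e := fun _ _ => x) (fun _ _ => hx)
    (K := ‖S.cmp ρ x‖) (fun ξ => by
      simp only [Fin.sum_univ_one, ← mul_pow]
      exact pow_le_pow_left₀ (norm_nonneg _) ((S.cmp ρ x).le_opNorm _) 2) fun _ => v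
  simp only [Fin.sum_univ_one, ← mul_pow] at this
  exact (sq_le_sq₀ (norm_nonneg _) (by positivity)).1 this

end Modular

end P132
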